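import Mathlib

/-!
Fourier analysis on the discrete cube. The two-point set `{-1, 1}` is `ℤˣ`, the units of `ℤ`.
-/

namespace Vale.Agent.P047

/-- The Fourier coefficient `E[f(X) ∏_{i ∈ S} X_i]`, with `X` uniform on `{-1,1}^n`. -/
noncomputable def fourierCoeff {n : ℕ} (f : (Fin n → ℤˣ) → ℝ) (S : Finset (Fin n)) : ℝ :=
  (∑ x : Fin n → ℤˣ, f x * ∏ i ∈ S, ((x i : ℤ) : ℝ)) / 2 ^ n

open Classical in
/-- The degree: the largest size of a set with a nonzero Fourier coefficient. -/
noncomputable def fourierDegree {n : ℕ} (f : (Fin n → ℤˣ) → ℝ) : ℕ :=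
  (Finset.univ.filter (fun S : Finset (Fin n) => fourierCoeff f S ≠ 0)).sup Finset.card

end Vale.Agent.P047
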