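import Vale.Agent.P047.LowDeg

/-!
An integer-valued Jackson-type kernel.
-/

namespace Vale.Agent.P047

open Finset

/-- Homogenised `sin ((2j+1) t) / sin t` at `sin t = i / B`. -/
def kw (B i : ℤ) : ℕ → ℤ
  | 0 => 1
  | 1 => 3 * B ^ 2 - 4 * i ^ 2
  | (j + 2) => 2 * (B ^ 2 - 2 * i ^ 2) * kw B i (j + 1) - B ^ 4 * kw B i j

lemma kw_sin (B i : ℤ) (t : ℝ) (h : (i : ℝ) = B * Real.sin t) :
    ∀ j : ℕ, (kw B i j : ℝ) * Real.sin t = (B : ℝ) ^ (2 * j) * Real.sin ((2 * j + 1) * t)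
  | 0 => by simp [kw]
  | 1 => by
    have : ((2 * (1 : ℕ) + 1 : ℝ)) * t = 3 * t := by norm_num
    rw [this, Real.sin_three_mul]
    simp only [kw]
    push_cast
    rw [h]; ring
  | (j + 2) => by
    have h1 := kw_sin B i t h j
    have h2 := kw_sin B i t h (j + 1)
    have e1 : ((2 * ((j + 2 : ℕ) : ℝ) + 1)) * t = (2 * ((j + 1 : ℕ) : ℝ) + 1) * t + 2 * t := by
      push_cast; ring
    have e2 : ((2 * (j : ℝ) + 1)) * t = (2 * ((j + 1 : ℕ) : ℝ) + 1) * t - 2 * t := by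
      push_cast; ring
    rw [e2, Real.sin_sub] at h1
    rw [e1, Real.sin_add]
    have e3 : Real.cos (2 * t) = 1 - 2 * Real.sin t ^ 2 := by
      rw [Real.cos_two_mul, Real.cos_sq']; ring
    rw [e3] at h1 ⊢
    simp only [kw]
    push_cast at h1 h2 ⊢
    rw [h]
    have p1 : (B : ℝ) ^ (2 * (j + 1)) = (B : ℝ) ^ (2 * j) * B ^ 2 := by ring
    have p2 : (B : ℝ) ^ (2 * (j + 2)) = (B : ℝ) ^ (2 * j) * B ^ 4 := by ring
    rw [p1] at h2
    rw [p2]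
    linear_combination (2 * (B : ℝ) ^ 2 * (1 - 2 * Real.sin t ^ 2)) * h2 - (B : ℝ) ^ 4 * h1

lemma kw_bound (B i : ℤ) (hB : 0 < B) (hi : |i| ≤ B) (j : ℕ) :
    |(kw B i j : ℝ)| * |(i : ℝ)| ≤ (B : ℝ) ^ (2 * j + 1) := by
  have hB' : (0 : ℝ) < B := by exact_mod_cast hB
  have hi' : |(i : ℝ)| ≤ B := by exact_mod_cast hi
  have h1 : -1 ≤ (i : ℝ) / B := by
    rw [le_div_iff₀ hB']; linarith [neg_abs_le (i : ℝ)]
  have h2 : (i : ℝ) / B ≤ 1 := by
    rw [div_le_one hB']; linarith [le_abs_self (i : ℝ)]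
  have h3 : (i : ℝ) = B * Real.sin (Real.arcsin (i / B)) := by
    rw [Real.sin_arcsin h1 h2]; field_simp
  have h4 := kw_sin B i _ h3 j
  set t := Real.arcsin ((i : ℝ) / B)
  have h5 : (kw B i j : ℝ) * i = (B : ℝ) ^ (2 * j + 1) * Real.sin ((2 * j + 1) * t) := by
    calc (kw B i j : ℝ) * i = (kw B i j : ℝ) * (B * Real.sin t) := by rw [← h3]
      _ = B * ((kw B i j : ℝ) * Real.sin t) := by ring
      _ = _ := by rw [h4]; ring
  rw [← abs_mul, h5, abs_mul, abs_of_pos (by positivity)]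
  exact mul_le_of_le_one_right (by positivity) (Real.abs_sin_le_one _)

lemma kw_zero (B : ℤ) : ∀ j : ℕ, kw B 0 j = (2 * j + 1) * B ^ (2 * j)
  | 0 => by simp [kw]
  | 1 => by simp [kw]
  | (j + 2) => by
    simp only [kw]
    rw [kw_zero B j, kw_zero B (j + 1)]
    push_cast
    ring

lemma kw_mem {ι : Type*} [DecidableEq ι] {a : ℕ} (B : ℤ) (X : (ι → ℤˣ) → ℤ)
    (hX : (fun x => (X x : ℝ)) ∈ lowDeg ι a) :
    ∀ j : ℕ, (fun x => (kw B (X x) j : ℝ)) ∈ lowDeg ι (2 * j * a)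
  | 0 => by simpa [kw] using const_mem 0 1
  | 1 => by
    have h := mul_mem' hX hX
    have : (fun x => (kw B (X x) 1 : ℝ))
        = fun x => 3 * (B : ℝ) ^ 2 - 4 * ((X x : ℝ) * X x) := by
      funext x; simp only [kw]; push_cast; ring
    rw [this]
    exact sub_mem' (const_mem _ _) (cmul_mem _ (lowDeg_mono (by omega) h))
  | (j + 2) => by
    have h := mul_mem' hX hX
    have h1 := kw_mem B X hX j
    have h2 := kw_mem B X hX (j + 1)
    have : (fun x => (kw B (X x) (j + 2) : ℝ))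
        = fun x => (2 * (B : ℝ) ^ 2 - 4 * ((X x : ℝ) * X x)) * (kw B (X x) (j + 1) : ℝ)
          - (B : ℝ) ^ 4 * (kw B (X x) j : ℝ) := by
      funext x; simp only [kw]; push_cast; ring
    rw [this]
    refine sub_mem' (lowDeg_mono (by nlinarith)
      (mul_mem' (sub_mem' (const_mem _ _) (cmul_mem _ h)) h2))
      (cmul_mem _ (lowDeg_mono (by nlinarith) h1))

/-- The kernel weights. -/
def kk (B : ℤ) (j : ℕ) (i : ℤ) : ℕ := (kw B i j).natAbs ^ 4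

lemma kk_cast (B : ℤ) (j : ℕ) (i : ℤ) : (kk B j i : ℝ) = (kw B i j : ℝ) ^ 4 := by
  unfold kk
  push_cast
  rw [Nat.cast_natAbs, Int.cast_abs]
  exact Even.pow_abs (by decide) _

lemma kk_mem {ι : Type*} [DecidableEq ι] {a : ℕ} (B : ℤ) (X : (ι → ℤˣ) → ℤ)
    (hX : (fun x => (X x : ℝ)) ∈ lowDeg ι a) (j : ℕ) :
    (fun x => (kk B j (X x) : ℝ)) ∈ lowDeg ι (8 * j * a) := by
  have h := kw_mem B X hX j
  have h2 := mul_mem' (mul_mem' h h) (mul_mem' h h)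
  have : (fun x => (kk B j (X x) : ℝ)) = fun x => (kw B (X x) j : ℝ) * (kw B (X x) j : ℝ)
      * ((kw B (X x) j : ℝ) * (kw B (X x) j : ℝ)) := by
    funext x; rw [kk_cast]; ring
  rw [this]
  exact lowDeg_mono (by nlinarith) h2

lemma kk_mul_le (B i : ℤ) (hB : 0 < B) (hi : |i| ≤ B) (j : ℕ) :
    (kk B j i : ℝ) * (i : ℝ) ^ 4 ≤ (B : ℝ) ^ (4 * (2 * j + 1)) := by
  have h := kw_bound B i hB hi j
  have h2 := pow_le_pow_left₀ (by positivity) h 4
  rw [mul_pow, Even.pow_abs (by decide), Even.pow_abs (by decide), ← pow_mul] at h2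
  rw [kk_cast, mul_comm 4]
  exact h2

lemma sum_inv_sq (n : ℕ) :
    ∑ i ∈ Icc (-(n : ℤ)) n, 1 / (i : ℝ) ^ 2 ≤ 4 - 4 / ((n : ℝ) + 1) := by
  induction n with
  | zero => simp
  | succ n ih =>
    have e : Icc (-((n + 1 : ℕ) : ℤ)) ((n + 1 : ℕ) : ℤ)
        = insert (-((n : ℤ) + 1)) (insert ((n : ℤ) + 1) (Icc (-(n : ℤ)) n)) := by
      ext i; simp only [mem_Icc, mem_insert]; omega
    rw [e, sum_insert (by simp only [mem_Icc, mem_insert]; omega),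
      sum_insert (by simp only [mem_Icc]; omega)]
    push_cast
    have hn : (0 : ℝ) ≤ n := by positivity
    have : 1 / (-((n : ℝ) + 1)) ^ 2 + 1 / ((n : ℝ) + 1) ^ 2
        ≤ 4 / ((n : ℝ) + 1) - 4 / ((n : ℝ) + 1 + 1) := by
      rw [neg_sq, ← add_div, div_sub_div _ _ (by positivity) (by positivity),
        div_le_div_iff₀ (by positivity) (by positivity)]
      nlinarith [mul_nonneg hn hn, mul_nonneg hn (mul_nonneg hn hn)]
    linarith

/-- The kernel as a uniform distribution on `Fin M`. -/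
lemma kernel_exists (B j : ℕ) (hj : 1 ≤ j) (hB : 2 * j + 1 ≤ B) :
    ∃ (M : ℕ) (J : Fin M → ℤ), 2 ≤ M ∧ M ≤ (2 * B + 1) * B ^ (4 * (2 * j + 1)) ∧
      (∀ g : ℤ → ℝ, ∑ u, g (J u) = ∑ i ∈ Icc (-(B : ℤ)) B, (kk B j i : ℝ) * g i) ∧
      ∑ u, (J u : ℝ) ^ 2 ≤ M * (4 * (B : ℝ) ^ 4 / (2 * j + 1) ^ 4) := by
  set M := ∑ i ∈ Icc (-(B : ℤ)) B, kk B j i with hM
  have hB0 : (0 : ℤ) < B := by omega
  have hBR : (1 : ℝ) ≤ B := by exact_mod_cast (by omega : 1 ≤ B)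
  have hcard : Fintype.card (Fin M) = Fintype.card (Σ i : Icc (-(B : ℤ)) B, Fin (kk B j i)) := by
    rw [Fintype.card_fin, Fintype.card_sigma]
    simp only [Fintype.card_fin]
    rw [hM, ← sum_coe_sort]
  let e := Fintype.equivOfCardEq hcard
  have hsum : ∀ g : ℤ → ℝ, ∑ u, g ((e u).1 : ℤ)
      = ∑ i ∈ Icc (-(B : ℤ)) B, (kk B j i : ℝ) * g i := by
    intro g
    rw [Fintype.sum_equiv e (fun u => g ((e u).1 : ℤ)) (fun s => g (s.1 : ℤ)) (fun _ => rfl),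
      Fintype.sum_sigma]
    simp only [sum_const, card_univ, Fintype.card_fin, nsmul_eq_mul]
    exact sum_coe_sort (Icc (-(B : ℤ)) B) (fun i => (kk B j i : ℝ) * g i)
  have h0 : (kk B j 0 : ℝ) = (2 * j + 1) ^ 4 * (B : ℝ) ^ (8 * j) := by
    rw [kk_cast, kw_zero]; push_cast; ring
  have hlow : (2 * j + 1) ^ 4 * (B : ℝ) ^ (8 * j) ≤ M := by
    rw [← h0]
    exact_mod_cast single_le_sum (f := fun i => kk B j i) (fun _ _ => Nat.zero_le _)
      (mem_Icc.2 ⟨by omega, by omega⟩)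
  have hj' : (1 : ℝ) ≤ j := by exact_mod_cast hj
  refine ⟨M, fun u => ((e u).1 : ℤ), ?_, ?_, hsum, ?_⟩
  · have h1 : (1 : ℝ) ≤ (B : ℝ) ^ (8 * j) := one_le_pow₀ hBR
    have h2 : (3 : ℝ) ^ 4 ≤ (2 * j + 1) ^ 4 := pow_le_pow_left₀ (by norm_num) (by linarith) 4
    have : (2 : ℝ) ≤ M := by nlinarith
    exact_mod_cast this
  · have h1 : ∀ i ∈ Icc (-(B : ℤ)) B, kk B j i ≤ B ^ (4 * (2 * j + 1)) := by
      intro i hi
      have : (kk B j i : ℝ) ≤ (B : ℝ) ^ (4 * (2 * j + 1)) := by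
        by_cases hi0 : i = 0
        · rw [hi0, h0]
          have h2 : (2 * j + 1 : ℝ) ≤ B := by exact_mod_cast hB
          have h3 : (2 * j + 1 : ℝ) ^ 4 ≤ (B : ℝ) ^ 4 := pow_le_pow_left₀ (by positivity) h2 4
          calc (2 * j + 1) ^ 4 * (B : ℝ) ^ (8 * j) ≤ (B : ℝ) ^ 4 * (B : ℝ) ^ (8 * j) := by gcongr
            _ = _ := by ring
        · have h2 := kk_mul_le B i hB0 (abs_le.2 (mem_Icc.1 hi)) j
          have h3 : (1 : ℝ) ≤ (i : ℝ) ^ 4 := by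
            have h : (0 : ℤ) < i ^ 4 := by positivity
            have : (1 : ℤ) ≤ i ^ 4 := h
            exact_mod_cast this
          push_cast at h2
          nlinarith [Nat.cast_nonneg (α := ℝ) (kk B j i)]
      exact_mod_cast this
    refine le_trans (sum_le_sum h1) ?_
    rw [sum_const, Int.card_Icc, smul_eq_mul]
    exact Nat.mul_le_mul_right _ (by omega)
  · rw [hsum (fun i => (i : ℝ) ^ 2)]
    have h1 : ∑ i ∈ Icc (-(B : ℤ)) B, (kk B j i : ℝ) * (i : ℝ) ^ 2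
        ≤ ∑ i ∈ Icc (-(B : ℤ)) B, (B : ℝ) ^ (4 * (2 * j + 1)) * (1 / (i : ℝ) ^ 2) := by
      refine sum_le_sum fun i hi => ?_
      by_cases hi0 : i = 0
      · simp [hi0]
      · have h2 := kk_mul_le B i hB0 (abs_le.2 (mem_Icc.1 hi)) j
        have h3 : (0 : ℝ) < (i : ℝ) ^ 2 := by
          have : (i : ℝ) ≠ 0 := by exact_mod_cast hi0
          positivity
        rw [mul_one_div, le_div_iff₀ h3]
        push_cast at h2
        nlinarith
    rw [← mul_sum] at h1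
    have h2 := sum_inv_sq B
    have h3 : (0 : ℝ) ≤ 4 / ((B : ℝ) + 1) := by positivity
    have h4 : (B : ℝ) ^ (4 * (2 * j + 1)) * ∑ i ∈ Icc (-(B : ℤ)) B, 1 / (i : ℝ) ^ 2
        ≤ (B : ℝ) ^ (4 * (2 * j + 1)) * 4 := by
      gcongr; linarith
    refine le_trans h1 (le_trans h4 ?_)
    calc (B : ℝ) ^ (4 * (2 * j + 1)) * 4
        = ((2 * j + 1) ^ 4 * (B : ℝ) ^ (8 * j)) * (4 * (B : ℝ) ^ 4 / (2 * j + 1) ^ 4) := by
          field_simp; ring
      _ ≤ _ := by gcongr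

end Vale.Agent.P047
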