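import Vale.Agent.P047.Levels
import Vale.Agent.P047.Kernel

/-!
Low-degree integer estimators of the coordinate sum.
-/

namespace Vale.Agent.P047

open Finset

/-- `G` estimates the coordinate sum; all functions of `G` have degree at most `D`. -/
structure Est (ι : Type) [Fintype ι] [DecidableEq ι] (D D' β : ℕ) (e : ℝ)
    (G : (ι → ℤˣ) → ℤ) : Prop where
  all : ∀ h : ℤ → ℝ, (fun x => h (G x)) ∈ lowDeg ι D
  lin : (fun x => (G x : ℝ)) ∈ lowDeg ι D'
  bdd : ∀ x, |G x| ≤ β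
  err : ∑ x, ((cs x : ℝ) - G x) ^ 2 ≤ e * 2 ^ Fintype.card ι

/-- An estimator, possibly biased. -/
def PreEst (n D β : ℕ) (e : ℝ) : Prop :=
  ∃ (ι : Type) (_ : Fintype ι) (_ : DecidableEq ι) (G : (ι → ℤˣ) → ℤ),
    Fintype.card ι = n ∧ Est ι D D β e G

/-- An unbiased estimator. -/
def HasEst (n D D' β : ℕ) (e : ℝ) : Prop :=
  ∃ (ι : Type) (_ : Fintype ι) (_ : DecidableEq ι) (G : (ι → ℤˣ) → ℤ),
    Fintype.card ι = n ∧ Est ι D D' β e G ∧ ∑ x, (G x : ℝ) = 0

lemma hasEst_one : HasEst 1 1 1 1 0 := by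
  refine ⟨Unit, inferInstance, inferInstance, cs, by simp, ⟨fun h => ?_, cs_mem, fun x => ?_, ?_⟩,
    sum_cs⟩
  · simpa using mem_card (ι := Unit) (fun x => h (cs x))
  · simpa using abs_cs_le x
  · simp

lemma hasEst_zero (D' : ℕ) : HasEst 0 0 D' 0 0 := by
  refine ⟨Empty, inferInstance, inferInstance, fun _ => 0, by simp,
    ⟨fun h => const_mem _ _, const_mem _ _, fun x => by simp, ?_⟩, by simp⟩
  simp [cs]

lemma sum_sum_sq {α β : Type*} [Fintype α] [Fintype β] (a : α → ℝ) (b : β → ℝ) :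
    ∑ x, ∑ z, (a x + b z) ^ 2 = Fintype.card β * ∑ x, a x ^ 2 + Fintype.card α * ∑ z, b z ^ 2
      + 2 * ((∑ x, a x) * ∑ z, b z) := by
  simp only [add_sq, sum_add_distrib, sum_const, card_univ, nsmul_eq_mul, mul_assoc, ← mul_sum,
    ← sum_mul]
  ring

lemma HasEst.add {n D D' β n2 D2 β2 : ℕ} {e e2 : ℝ} (h1 : HasEst n D D' β e)
    (h2 : HasEst n2 D2 D' β2 e2) : HasEst (n + n2) (D + D2) D' (β + β2) (e + e2) := by
  obtain ⟨ι, _, _, G, hn, hG, hm⟩ := h1
  obtain ⟨ι', _, _, G', hn', hG', hm'⟩ := h2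
  refine ⟨ι ⊕ ι', inferInstance, inferInstance,
    fun x => G (fun i => x (Sum.inl i)) + G' (fun i => x (Sum.inr i)), by simp [hn, hn'],
    ⟨fun h => ?_, ?_, fun x => ?_, ?_⟩, ?_⟩
  · exact sep_mem G' hG'.all (fun x g => h (G x + g)) (fun g => hG.all (fun t => h (t + g)))
  · push_cast
    exact add_mem' (inl_mem hG.lin) (inr_mem hG'.lin)
  · push_cast
    exact le_trans (abs_add_le _ _) (add_le_add (hG.bdd _) (hG'.bdd _))
  · have e1 : ∀ x : ι ⊕ ι' → ℤˣ, ((cs x : ℝ) - ((G (fun i => x (Sum.inl i))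
        + G' (fun i => x (Sum.inr i)) : ℤ) : ℝ)) ^ 2
        = (fun a b => (((cs a : ℝ) - G a) + ((cs b : ℝ) - G' b)) ^ 2)
          (fun i => x (Sum.inl i)) (fun i => x (Sum.inr i)) := by
      intro x; rw [cs_sum]; push_cast; ring
    simp only [e1]
    rw [sum_sum_cube (fun a b => (((cs a : ℝ) - G a) + ((cs b : ℝ) - G' b)) ^ 2), sum_sum_sq,
      sum_sub_distrib, sum_cs, hm, card_cube, card_cube, Fintype.card_sum, pow_add]
    have a1 := hG.err
    have a2 := hG'.err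
    push_cast
    have p1 : (0 : ℝ) < 2 ^ Fintype.card ι := by positivity
    have p2 : (0 : ℝ) < 2 ^ Fintype.card ι' := by positivity
    nlinarith [mul_le_mul_of_nonneg_left a1 p2.le, mul_le_mul_of_nonneg_left a2 p1.le]
  · push_cast
    rw [sum_sum_cube (fun a b => (G a : ℝ) + G' b)]
    simp only [sum_add_distrib, sum_const, hm', nsmul_eq_mul, ← mul_sum, hm]
    simp

lemma HasEst.rep {n D D' β : ℕ} {e : ℝ} (h : HasEst n D D' β e) (Z : ℕ) :
    HasEst (Z * n) (Z * D) D' (Z * β) (Z * e) := by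
  induction Z with
  | zero => simpa using hasEst_zero D'
  | succ Z ih =>
    have := ih.add h
    push_cast
    simpa only [add_mul, one_mul] using this

lemma PreEst.symm {n D β : ℕ} {e : ℝ} (h : PreEst n D β e) :
    HasEst (2 * n) (2 * D) (2 * D) (2 * β) (2 * e) := by
  obtain ⟨ι, _, _, G, hn, hG⟩ := h
  have hall : ∀ h : ℤ → ℝ, (fun x : ι ⊕ ι → ℤˣ => h (G (fun i => x (Sum.inl i))
      - G (-fun i => x (Sum.inr i)))) ∈ lowDeg (ι ⊕ ι) (2 * D) := by
    intro h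
    rw [two_mul]
    exact sep_mem (fun z => G (-z)) (fun h => neg_mem' (hG.all h)) (fun x g => h (G x - g))
      (fun g => hG.all (fun t => h (t - g)))
  refine ⟨ι ⊕ ι, inferInstance, inferInstance,
    fun x => G (fun i => x (Sum.inl i)) - G (-fun i => x (Sum.inr i)), by simp [hn, two_mul],
    ⟨hall, hall _, fun x => ?_, ?_⟩, ?_⟩
  · push_cast
    refine le_trans (abs_sub _ _) ?_
    have := hG.bdd (fun i => x (Sum.inl i))
    have := hG.bdd (-fun i => x (Sum.inr i))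
    linarith
  · have e1 : ∀ x : ι ⊕ ι → ℤˣ, ((cs x : ℝ) - ((G (fun i => x (Sum.inl i))
        - G (-fun i => x (Sum.inr i)) : ℤ) : ℝ)) ^ 2
        = (fun a b => (((cs a : ℝ) - G a) + (-((cs (-b) : ℝ) - G (-b)))) ^ 2)
          (fun i => x (Sum.inl i)) (fun i => x (Sum.inr i)) := by
      intro x; rw [cs_sum]; simp only [cs_neg]; push_cast; ring
    simp only [e1]
    rw [sum_sum_cube (fun a b => (((cs a : ℝ) - G a) + (-((cs (-b) : ℝ) - G (-b)))) ^ 2),
      sum_sum_sq, sum_neg_cube (fun b => (-((cs b : ℝ) - G b)) ^ 2),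
      sum_neg_cube (fun b => (-((cs b : ℝ) - G b))), card_cube, Fintype.card_sum, pow_add,
      sum_neg_distrib]
    simp only [neg_sq]
    have a1 := hG.err
    push_cast
    have p1 : (0 : ℝ) < 2 ^ Fintype.card ι := by positivity
    nlinarith [mul_le_mul_of_nonneg_left a1 p1.le, mul_self_nonneg (∑ x, ((cs x : ℝ) - G x))]
  · push_cast
    rw [sum_sum_cube (fun a b => (G a : ℝ) - G (-b))]
    simp only [sum_sub_distrib, sum_const, nsmul_eq_mul, ← mul_sum,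
      sum_neg_cube (fun b => (G b : ℝ))]
    simp

/-- The clipped label. -/
def lab (B0 : ℕ) (σ i : ℤ) : ℤ := if |σ - i| ≤ 2 * B0 then σ - i else 0

lemma lab_avg (B0 j : ℕ) (h : ℤ → ℝ) (σ : ℤ) (hσ : |σ| ≤ B0) :
    ∑ i ∈ Icc (-((3 * B0 : ℕ) : ℤ)) (3 * B0 : ℕ),
        (kk (3 * B0 : ℕ) j i : ℝ) * (h (lab B0 σ i) - h 0)
      = ∑ c ∈ Icc (-(2 * B0 : ℤ)) (2 * B0), (kk (3 * B0 : ℕ) j (σ - c) : ℝ) * (h c - h 0) := by
  have hσ' := abs_le.1 hσ
  rw [← sum_filter_add_sum_filter_not _ (fun i => |σ - i| ≤ 2 * B0)]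
  rw [sum_eq_zero (s := filter (fun i => ¬ |σ - i| ≤ 2 * B0) _) (fun i hi => by
    rw [lab, if_neg (mem_filter.1 hi).2]; simp), add_zero]
  refine sum_nbij' (fun i => σ - i) (fun c => σ - c) ?_ ?_ ?_ ?_ ?_
  · intro i hi
    exact mem_Icc.2 (abs_le.1 (mem_filter.1 hi).2)
  · intro c hc
    have := mem_Icc.1 hc
    refine mem_filter.2 ⟨mem_Icc.2 ⟨by push_cast; omega, by push_cast; omega⟩, ?_⟩
    rw [abs_le]; omega
  · intro i _; simp
  · intro i _; simp
  · intro i hi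
    rw [lab, if_pos (mem_filter.1 hi).2]; simp

lemma lab_err (B0 : ℕ) (σ i : ℤ) (hσ : |σ| ≤ B0) : ((σ : ℝ) - lab B0 σ i) ^ 2 ≤ (i : ℝ) ^ 2 := by
  unfold lab
  split_ifs with h
  · push_cast; nlinarith
  · have h1 : |σ| ≤ |i| := by
      have := abs_sub σ i
      omega
    have h2 : σ ^ 2 ≤ i ^ 2 := sq_le_sq.2 h1
    simp only [Int.cast_zero, sub_zero]
    exact_mod_cast h2

/-- The main recursion step. -/
lemma step {m Dz D' βz : ℕ} {ez : ℝ} (hz : HasEst m Dz D' βz ez) (hD' : 1 ≤ D') (t j D : ℕ)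
    (hj : 1 ≤ j) (hB : 2 * j + 1 ≤ 3 * (9 * t + βz)) (hD1 : 9 * t + 8 * j * D' ≤ D)
    (hD2 : 5 * t + Dz ≤ D) (b : ℝ)
    (hb : ∀ M : ℕ, M ≤ (2 * (3 * (9 * t + βz)) + 1) * (3 * (9 * t + βz)) ^ (4 * (2 * j + 1)) →
      ((9 * t + βz : ℕ) : ℝ) ^ 2 * (((2 * (9 * t) + 1) *
        ((2 * (4 * M ^ 2 * (9 * t + 1) ^ 2 + 1) + 1) * (2 * 485 ^ t * (9 * t + 2))) : ℕ) : ℝ)
        ≤ b * 2 ^ (9 * t)) :
    PreEst (9 * t + m) D (2 * (9 * t + βz))
      (2 * ez + 2 * (4 * ((3 * (9 * t + βz) : ℕ) : ℝ) ^ 4 / (2 * j + 1) ^ 4 + b)) := by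
  classical
  obtain ⟨ι', _, _, G0, hm, hG0, -⟩ := hz
  set B0 := 9 * t + βz with hB0
  obtain ⟨M, J, hM2, hMle, hJ, hJ2⟩ := kernel_exists (3 * B0) j hj hB
  obtain ⟨A, hA1, hA2, hA3, hA4⟩ := level_mers (ι := Fin (9 * t)) t M hM2 (Fintype.card_fin _)
  have hMpos : (0 : ℝ) < M := by exact_mod_cast (by omega : 0 < M)
  let u0 : Fin M := ⟨0, by omega⟩
  let I : Fin M → (Fin (9 * t) → ℤˣ) → ℝ := fun u x => if x ∈ A u then 1 else 0
  let G : (Fin (9 * t) → ℤˣ) → ℤ → ℤ := fun x g =>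
    ∑ u, if x ∈ A u then lab B0 (cs x + g) (J u) else 0
  have hcase : ∀ x g, (∃ u, G x g = lab B0 (cs x + g) (J u) ∧
      ∀ F : Fin M → ℝ, ∑ v, I v x * F v = F u) ∨
      (G x g = 0 ∧ (∀ u, x ∉ A u) ∧ ∀ F : Fin M → ℝ, ∑ v, I v x * F v = 0) := by
    intro x g
    by_cases hx : ∃ u, x ∈ A u
    · obtain ⟨u, hu⟩ := hx
      have hn : ∀ v, v ≠ u → x ∉ A v := fun v hv h => disjoint_left.1 (hA1 v u hv) h hu
      refine Or.inl ⟨u, ?_, fun F => ?_⟩
      · simp only [G]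
        rw [sum_eq_single u (fun v _ hv => if_neg (hn v hv)) (by simp), if_pos hu]
      · rw [sum_eq_single u (fun v _ hv => by simp [I, hn v hv]) (by simp)]
        simp [I, hu]
    · push Not at hx
      exact Or.inr ⟨by simp [G, hx], hx, fun F => by simp [I, hx]⟩
  have hσ : ∀ (x : Fin (9 * t) → ℤˣ) (z : ι' → ℤˣ), |cs x + G0 z| ≤ B0 := by
    intro x z
    have h1 := abs_cs_le x
    rw [Fintype.card_fin] at h1
    have h2 := hG0.bdd z
    have h3 := abs_add_le (cs x) (G0 z)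
    push_cast [hB0] at h1 ⊢
    linarith
  have hall : ∀ h : ℤ → ℝ, (fun w : Fin (9 * t) ⊕ ι' → ℤˣ =>
      h (G (fun i => w (Sum.inl i)) (G0 (fun i => w (Sum.inr i))))) ∈ lowDeg _ D := by
    intro h
    let R : Fin M → ℤ → ℝ := fun u σ => h (lab B0 σ (J u)) - h 0
    let P : ℤ → ℝ := fun σ => (∑ u, R u σ) / M
    have hid : ∀ x g, h (G x g) = h 0 + (∑ u, I u x) * P (cs x + g)
        + ∑ u, (I u x - I u0 x) * (R u (cs x + g) - P (cs x + g)) := by
      intro x g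
      have h1 : h (G x g) = h 0 + ∑ u, I u x * R u (cs x + g) := by
        rcases hcase x g with ⟨u, h1, h2⟩ | ⟨h1, -, h2⟩
        · rw [h1, h2]; simp [R]
        · rw [h1, h2]; simp
      have h2 : ∑ u, (R u (cs x + g) - P (cs x + g)) = 0 := by
        rw [sum_sub_distrib, sum_const, card_univ, Fintype.card_fin, nsmul_eq_mul]
        simp only [P]; field_simp; ring
      simp only [sub_mul, sum_sub_distrib, ← mul_sum, h2, mul_zero, sub_zero]
      rw [h1, sum_mul, add_assoc, ← sum_add_distrib]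
      congr 1
      exact sum_congr rfl fun u _ => by ring
    simp only [hid]
    refine add_mem' (add_mem' (const_mem _ _) (lowDeg_mono hD1 (mul_mem' ?_ ?_))) ?_
    · have := mem_card (fun x => ∑ u, I u x)
      rw [Fintype.card_fin] at this
      exact inl_mem this
    · have hP : ∀ (x : Fin (9 * t) → ℤˣ) (z : ι' → ℤˣ), P (cs x + G0 z)
          = (∑ c ∈ Icc (-(2 * B0 : ℤ)) (2 * B0),
            (kk (3 * B0 : ℕ) j (cs x + G0 z - c) : ℝ) * (h c - h 0)) * (1 / M) := by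
        intro x z
        simp only [P, R]
        rw [hJ (fun i => h (lab B0 (cs x + G0 z) i) - h 0), lab_avg B0 j h _ (hσ x z)]
        ring
      simp only [hP]
      refine mulc_mem _ (sum_mem' _ fun c _ => mulc_mem _ (kk_mem _ _ ?_ j))
      push_cast
      exact sub_mem' (add_mem' (inl_mem (lowDeg_mono hD' cs_mem)) (inr_mem hG0.lin))
        (const_mem _ _)
    · refine sum_mem' _ fun u _ => lowDeg_mono hD2 ?_
      exact sep_mem G0 hG0.all
        (fun x g => (I u x - I u0 x) * (R u (cs x + g) - P (cs x + g)))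
        (fun g => hA2 u u0 (fun c => R u (c + g) - P (c + g)))
  refine ⟨Fin (9 * t) ⊕ ι', inferInstance, inferInstance,
    fun w => G (fun i => w (Sum.inl i)) (G0 (fun i => w (Sum.inr i))), by simp [hm],
    ⟨hall, hall _, fun w => ?_, ?_⟩⟩
  · rcases hcase (fun i => w (Sum.inl i)) (G0 (fun i => w (Sum.inr i))) with ⟨u, h1, -⟩ | ⟨h1, -⟩
    · rw [h1, lab]
      split_ifs with h
      · exact_mod_cast h
      · simp
    · rw [h1]; simp
  · let bad : (Fin (9 * t) → ℤˣ) → ℝ := fun x => if ∀ u, x ∉ A u then 1 else 0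
    have hpt : ∀ (x : Fin (9 * t) → ℤˣ) (z : ι' → ℤˣ), ((cs x : ℝ) + cs z - G x (G0 z)) ^ 2
        ≤ 2 * ((cs z : ℝ) - G0 z) ^ 2
          + 2 * (∑ u, I u x * (J u : ℝ) ^ 2 + (B0 : ℝ) ^ 2 * bad x) := by
      intro x z
      have h0 : (((cs x + G0 z : ℤ) : ℝ) - G x (G0 z)) ^ 2
          ≤ ∑ u, I u x * (J u : ℝ) ^ 2 + (B0 : ℝ) ^ 2 * bad x := by
        rcases hcase x (G0 z) with ⟨u, h1, h2⟩ | ⟨h1, h3, h2⟩
        · rw [h1, h2]
          have := lab_err B0 _ (J u) (hσ x z)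
          have h4 : 0 ≤ (B0 : ℝ) ^ 2 * bad x := by
            simp only [bad]; split_ifs <;> positivity
          linarith
        · rw [h1, h2]
          simp only [bad, if_pos h3]
          have h4 : (cs x + G0 z) ^ 2 ≤ (B0 : ℤ) ^ 2 :=
            sq_le_sq.2 (by rw [abs_of_nonneg (a := (B0 : ℤ)) (by positivity)]; exact hσ x z)
          have h5 : ((cs x + G0 z : ℤ) : ℝ) ^ 2 ≤ (B0 : ℝ) ^ 2 := by exact_mod_cast h4
          simpa using h5
      push_cast at h0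
      nlinarith [sq_nonneg (((cs z : ℝ) - G0 z) - ((cs x : ℝ) + G0 z - G x (G0 z)))]
    have e1 : ∀ w : Fin (9 * t) ⊕ ι' → ℤˣ,
        ((cs w : ℝ) - G (fun i => w (Sum.inl i)) (G0 (fun i => w (Sum.inr i)))) ^ 2
        = (fun x z => ((cs x : ℝ) + cs z - G x (G0 z)) ^ 2)
          (fun i => w (Sum.inl i)) (fun i => w (Sum.inr i)) := by
      intro w; rw [cs_sum]; push_cast; ring
    simp only [e1]
    rw [sum_sum_cube (fun x z => ((cs x : ℝ) + cs z - G x (G0 z)) ^ 2)]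
    refine le_trans (sum_le_sum fun x _ => sum_le_sum fun z _ => hpt x z) ?_
    have hI : ∑ x, ∑ u, I u x * (J u : ℝ) ^ 2
        ≤ 2 ^ (9 * t) * (4 * ((3 * B0 : ℕ) : ℝ) ^ 4 / (2 * j + 1) ^ 4) := by
      rw [sum_comm]
      have h1 : ∀ u, ∑ x, I u x * (J u : ℝ) ^ 2 = (A u0).card * (J u : ℝ) ^ 2 := by
        intro u
        rw [← sum_mul, ← hA3 u u0]
        simp [I]
      simp only [h1]
      rw [← mul_sum]
      have h2 : (M : ℝ) * (A u0).card ≤ 2 ^ (9 * t) := by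
        have h3 := card_le_univ ((univ : Finset (Fin M)).biUnion A)
        rw [card_biUnion (fun u _ v _ huv => hA1 u v huv), card_cube, Fintype.card_fin] at h3
        simp only [fun u => hA3 u u0, sum_const, card_univ, Fintype.card_fin, smul_eq_mul] at h3
        exact_mod_cast h3
      calc ((A u0).card : ℝ) * ∑ u, (J u : ℝ) ^ 2
          ≤ (A u0).card * (M * (4 * ((3 * B0 : ℕ) : ℝ) ^ 4 / (2 * j + 1) ^ 4)) := by gcongr
        _ = (M * (A u0).card) * (4 * ((3 * B0 : ℕ) : ℝ) ^ 4 / (2 * j + 1) ^ 4) := by ring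
        _ ≤ _ := by gcongr
    have hbad : (B0 : ℝ) ^ 2 * ∑ x, bad x ≤ b * 2 ^ (9 * t) := by
      refine le_trans ?_ (hb M hMle)
      simp only [bad, sum_boole]
      gcongr
    have herr := hG0.err
    simp only [sum_add_distrib, sum_const, card_univ, card_cube, nsmul_eq_mul, ← mul_sum,
      Fintype.card_sum, Fintype.card_fin, pow_add]
    push_cast at hI ⊢
    have p1 : (0 : ℝ) < 2 ^ Fintype.card ι' := by positivity
    have p2 : (0 : ℝ) < 2 ^ (9 * t) := by positivity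
    nlinarith [mul_le_mul_of_nonneg_left herr p2.le, mul_le_mul_of_nonneg_left hI p1.le,
      mul_le_mul_of_nonneg_left hbad p1.le]

end Vale.Agent.P047
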