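import Vale.Agent.P047.Good
import Vale.Agent.P047.Defs

/-!
From estimators to a balanced Boolean function beating the square root, and tensor powers.
-/

namespace Vale.Agent.P047

open Finset

lemma sum_cs_fun {ι : Type*} [Fintype ι] [DecidableEq ι] (h : ℤ → ℝ) :
    ∑ x : ι → ℤˣ, h (cs x) = ∑ w ∈ range (Fintype.card ι + 1),
      ((Fintype.card ι).choose w : ℝ) * h (Fintype.card ι - 2 * w) := by
  have h1 := sum_powerset_apply_card (fun w : ℕ => h (Fintype.card ι - 2 * w))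
    (x := (univ : Finset ι))
  simp only [card_univ, nsmul_eq_mul, powerset_univ] at h1
  rw [← h1]
  symm
  refine Fintype.sum_bijective (fun (s : Finset ι) (i : ι) => if i ∈ s then (-1 : ℤˣ) else 1)
    ⟨?_, ?_⟩ _ _ ?_
  · intro s t hst
    ext i
    have := congrFun hst i
    by_cases h1 : i ∈ s <;> by_cases h2 : i ∈ t <;> simp_all
  · intro x
    refine ⟨univ.filter (fun i => x i = -1), ?_⟩
    funext i
    rcases Int.units_eq_one_or (x i) with h | h <;> simp [h]
  · intro s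
    congr 1
    have : ∀ i, (((if i ∈ s then (-1 : ℤˣ) else 1 : ℤˣ)) : ℤ) = 1 - 2 * (if i ∈ s then 1 else 0) := by
      intro i; split_ifs <;> simp
    simp only [cs, this, sum_sub_distrib, ← mul_sum]
    simp

lemma sum_abs_cs {ι : Type*} [Fintype ι] [DecidableEq ι] (m : ℕ) (h : Fintype.card ι = 2 * m) :
    ∑ x : ι → ℤˣ, |(cs x : ℝ)| = 2 * m * (Nat.centralBinom m : ℝ) := by
  rw [sum_cs_fun (fun t => |(t : ℝ)|), h]
  let g : ℕ → ℝ := fun w => w * ((2 * m).choose w : ℝ)
  have hg : ∀ w, w ≤ 2 * m → g (w + 1) - g w = ((2 * m).choose w : ℝ) * (2 * m - 2 * w) := by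
    intro w hw
    have h1 : (((2 * m).choose (w + 1) * (w + 1) : ℕ) : ℝ)
        = (((2 * m).choose w * (2 * m - w) : ℕ) : ℝ) := by rw [Nat.choose_succ_right_eq]
    push_cast [Nat.cast_sub hw] at h1
    simp only [g]
    push_cast
    linarith
  rw [show 2 * m + 1 = m + (m + 1) by ring, sum_range_add]
  have e1 : ∑ w ∈ range m, ((2 * m).choose w : ℝ) * |((((2 * m : ℕ) : ℤ) - 2 * (w : ℤ) : ℤ) : ℝ)|
      = g m - g 0 := by
    rw [← sum_range_sub]
    refine sum_congr rfl fun w hw => ?_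
    have hw' : w < m := mem_range.1 hw
    have : (w : ℝ) < m := by exact_mod_cast hw'
    rw [hg w (by omega)]
    push_cast
    rw [abs_of_nonneg (by linarith)]
  have e2 : ∑ w ∈ range (m + 1), ((2 * m).choose (m + w) : ℝ)
      * |((((2 * m : ℕ) : ℤ) - 2 * ((m + w : ℕ) : ℤ) : ℤ) : ℝ)| = g (m + 0) - g (m + (m + 1)) := by
    rw [← sum_range_sub' (fun w => g (m + w))]
    refine sum_congr rfl fun w hw => ?_
    have hw' : w < m + 1 := mem_range.1 hw
    have h2 := hg (m + w) (by omega)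
    have : (0 : ℝ) ≤ w := by positivity
    push_cast at h2 ⊢
    rw [abs_of_nonpos (by linarith), ← add_assoc]
    linarith
  rw [e1, e2]
  simp only [g, add_zero, Nat.centralBinom]
  rw [Nat.choose_eq_zero_of_lt (show 2 * m < m + (m + 1) by omega)]
  simp; ring

lemma central_lower (m : ℕ) (hm : 5 ≤ m) : 3 * 16 ^ m ≤ 10 * m * Nat.centralBinom m ^ 2 := by
  induction m, hm using Nat.le_induction with
  | base => decide
  | succ m hm ih =>
    have h := Nat.succ_mul_centralBinom_succ m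
    have h1 : (m + 1) * (10 * (m + 1) * Nat.centralBinom (m + 1) ^ 2)
        = 10 * (2 * (2 * m + 1)) ^ 2 * Nat.centralBinom m ^ 2 := by
      calc _ = 10 * ((m + 1) * Nat.centralBinom (m + 1)) ^ 2 := by ring
        _ = _ := by rw [h]; ring
    refine Nat.le_of_mul_le_mul_left ?_ (Nat.succ_pos m)
    rw [h1, pow_succ 16]
    calc m.succ * (3 * (16 ^ m * 16)) = 16 * (m + 1) * (3 * 16 ^ m) := by
          rw [Nat.succ_eq_add_one]; ring
      _ ≤ 16 * (m + 1) * (10 * m * Nat.centralBinom m ^ 2) := Nat.mul_le_mul_left _ ih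
      _ = 10 * (16 * (m + 1) * m) * Nat.centralBinom m ^ 2 := by ring
      _ ≤ _ := by gcongr; nlinarith

/-- A balanced Boolean function of degree at most `d` with linear-coefficient sum `L`. -/
def Bal (d : ℕ) (L : ℝ) : Prop :=
  ∃ (ι : Type) (_ : Fintype ι) (_ : DecidableEq ι) (f : (ι → ℤˣ) → ℤˣ),
    (fun x => sg (f x)) ∈ lowDeg ι d ∧ ∑ x, sg (f x) = 0 ∧
      ∑ x, sg (f x) * cs x = L * 2 ^ Fintype.card ι

lemma bal_one : Bal 1 1 := by
  refine ⟨Unit, inferInstance, inferInstance, fun x => x (), ?_, ?_, ?_⟩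
  · simpa using mem_card (ι := Unit) (fun x => sg (x ()))
  · simpa [cs_cast] using sum_cs (ι := Unit)
  · simp [cs_cast, sg_mul_self]

lemma oddify {ι : Type} [Fintype ι] [DecidableEq ι] (f : (ι → ℤˣ) → ℤˣ) (d : ℕ)
    (hf : (fun x => sg (f x)) ∈ lowDeg ι d) :
    Bal (d + 1) ((∑ x, sg (f x) * cs x + ∑ x, sg (f x)) / 2 ^ Fintype.card ι) := by
  have hsw : ∀ (y : ℤˣ) (F : (ι → ℤˣ) → ℝ), ∑ x : ι → ℤˣ, F (fun i => y * x i) = ∑ x, F x := by
    intro y F
    exact Fintype.sum_equiv (Equiv.mulLeft (fun _ => y)) _ _ fun _ => rfl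
  refine ⟨ι ⊕ Unit, inferInstance, inferInstance,
    fun w => w (Sum.inr ()) * f (fun i => w (Sum.inr ()) * w (Sum.inl i)), ?_, ?_, ?_⟩
  · simp only [sg_mul]
    refine map_mem ((LinearMap.mulLeft ℝ (fun w : ι ⊕ Unit → ℤˣ => sg (w (Sum.inr ())))).comp
      (LinearMap.funLeft ℝ ℝ (fun (w : ι ⊕ Unit → ℤˣ) i => w (Sum.inr ()) * w (Sum.inl i))))
      (fun S hS => ?_) hf
    have h1 := mul_mem' (inl_mem (ι' := Unit) (chi_mem hS))
      (inr_mem (ι := ι) (mem_card (ι := Unit) (fun z => sg (z ()) ^ (S.card + 1))))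
    rw [Fintype.card_unit] at h1
    convert h1 using 1
    funext w
    simp [LinearMap.funLeft, chi, sg_mul, prod_mul_distrib]
    ring
  · simp only [sg_mul]
    rw [sum_sum_cube (fun (x : ι → ℤˣ) (z : Unit → ℤˣ) => sg (z ()) * sg (f (fun i => z () * x i))),
      sum_comm]
    simp only [← mul_sum, hsw _ (fun x => sg (f x)), ← sum_mul]
    have := sum_cs (ι := Unit)
    simp only [cs_cast, univ_unique, sum_singleton] at this
    exact mul_eq_zero_of_left this _
  · simp only [sg_mul, cs_sum]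
    rw [sum_sum_cube (fun (x : ι → ℤˣ) (z : Unit → ℤˣ) => sg (z ()) * sg (f (fun i => z () * x i))
      * ((cs x + cs z : ℤ) : ℝ)), sum_comm]
    have h1 : ∀ z : Unit → ℤˣ, ∑ x : ι → ℤˣ, sg (z ()) * sg (f (fun i => z () * x i))
        * ((cs x + cs z : ℤ) : ℝ) = ∑ x, sg (f x) * cs x + ∑ x, sg (f x) := by
      intro z
      rw [← hsw (z ()) (fun x => sg (f x) * cs x), ← hsw (z ()) (fun x => sg (f x)),
        ← sum_add_distrib]
      refine sum_congr rfl fun x _ => ?_
      push_cast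
      simp only [cs_cast, sg_mul, ← mul_sum, univ_unique, sum_singleton]
      linear_combination sg (f (fun i => z () * x i)) * sg_mul_self (z ())
    simp only [h1, sum_const, card_univ, card_cube, Fintype.card_sum, nsmul_eq_mul, pow_add]
    field_simp
    simp
    ring

lemma exists_bal : ∃ (d : ℕ) (L : ℝ), Bal d L ∧ 2 ≤ d ∧ 0 < L ∧ (d : ℝ) < L ^ 2 := by
  obtain ⟨n, D, β, e, hE, hD, hρ, he⟩ := good_final 0.000016 (by norm_num)
  have hn1 : 1 ≤ n := by
    have : (1 : ℝ) ≤ D := by exact_mod_cast hD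
    have : (1 : ℝ) ≤ n := by linarith
    exact_mod_cast this
  obtain ⟨ι, _, _, G, hc, hG, -⟩ := hE.rep 1000000
  let f : (ι → ℤˣ) → ℤˣ := fun x => if 0 ≤ G x then 1 else -1
  have hf : (fun x => sg (f x)) ∈ lowDeg ι (1000000 * D) :=
    hG.all (fun t => sg (if 0 ≤ t then 1 else -1))
  set N := Fintype.card ι with hN
  have hNR : (N : ℝ) = 1000000 * n := by rw [hc]; push_cast; ring
  have hnR : (1 : ℝ) ≤ n := by exact_mod_cast hn1
  set w := Real.sqrt N with hw
  have hw2 : w ^ 2 = N := Real.sq_sqrt (by positivity)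
  have hw0 : 1000 ≤ w := Real.le_sqrt_of_sq_le (by rw [hNR]; linarith)
  have hp : (0 : ℝ) < 2 ^ N := by positivity
  have habs : 0.7745 * w * 2 ^ N ≤ ∑ x : ι → ℤˣ, |(cs x : ℝ)| := by
    rw [sum_abs_cs (500000 * n) (by omega)]
    have h1 := central_lower (500000 * n) (by omega)
    have h2 : (3 : ℝ) * 16 ^ (500000 * n)
        ≤ 10 * (500000 * n : ℕ) * (Nat.centralBinom (500000 * n) : ℝ) ^ 2 := by exact_mod_cast h1
    have h3 : ((2 : ℝ) ^ N) ^ 2 = 16 ^ (500000 * n) := by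
      rw [← pow_mul, hc, show (16 : ℝ) = 2 ^ 4 by norm_num, ← pow_mul]; congr 1; ring
    refine le_of_sq_le_sq ?_ (by positivity)
    rw [mul_pow, mul_pow, hw2, h3, hNR]
    push_cast at h2 ⊢
    have h4 : (0 : ℝ) < 16 ^ (500000 * n) := by positivity
    nlinarith [mul_le_mul_of_nonneg_left h2 (by positivity : (0 : ℝ) ≤ n)]
  have hpt : ∀ x, |(cs x : ℝ)| - (((cs x : ℝ) - G x) ^ 2 / (0.004 * w) + 0.004 * w) - 1
      ≤ sg (f x) * cs x + sg (f x) := by
    intro x
    have h1 : 2 * |(cs x : ℝ) - G x| ≤ ((cs x : ℝ) - G x) ^ 2 / (0.004 * w) + 0.004 * w := by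
      rw [div_add' _ _ _ (by positivity), le_div_iff₀ (by positivity), ← sq_abs ((cs x : ℝ) - G x)]
      nlinarith [sq_nonneg (|(cs x : ℝ) - G x| - 0.004 * w)]
    have h2 := le_abs_self ((cs x : ℝ) - G x)
    have h3 := neg_abs_le ((cs x : ℝ) - G x)
    by_cases hx : 0 ≤ G x
    · have : (0 : ℝ) ≤ G x := by exact_mod_cast hx
      simp only [f, if_pos hx, sg_one]
      have : |(cs x : ℝ)| ≤ cs x + 2 * |(cs x : ℝ) - G x| := by
        rw [abs_le]; constructor <;> linarith
      linarith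
    · have : (G x : ℝ) < 0 := by exact_mod_cast not_le.1 hx
      simp only [f, if_neg hx, sg_neg, sg_one]
      have : |(cs x : ℝ)| ≤ - cs x + 2 * |(cs x : ℝ) - G x| := by
        rw [abs_le]; constructor <;> linarith
      linarith
  have hsum := sum_le_sum (s := univ) fun x _ => hpt x
  simp only [sum_sub_distrib, sum_add_distrib, sum_const, card_univ, card_cube, nsmul_eq_mul,
    ← sum_div] at hsum
  push_cast at hsum
  rw [← hN] at hsum
  have herr : (∑ x, ((cs x : ℝ) - G x) ^ 2) / (0.004 * w) ≤ 0.004 * w * 2 ^ N := by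
    rw [div_le_iff₀ (by positivity)]
    have h1 := hG.err
    rw [← hN] at h1
    push_cast at h1
    have h2 : 1000000 * e ≤ 0.000016 * w ^ 2 := by rw [hw2, hNR]; linarith
    nlinarith [mul_le_mul_of_nonneg_right h2 hp.le]
  have hL : 0.7655 * w ≤ (∑ x, sg (f x) * cs x + ∑ x, sg (f x)) / 2 ^ N := by
    rw [le_div_iff₀ hp]
    nlinarith [mul_le_mul_of_nonneg_right hw0 hp.le]
  refine ⟨_, _, oddify f _ hf, by omega, lt_of_lt_of_le (by positivity) hL, ?_⟩
  refine lt_of_lt_of_le ?_ (pow_le_pow_left₀ (by positivity) hL 2)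
  rw [mul_pow, hw2, hNR]
  push_cast
  nlinarith

lemma comp_sum {ι β : Type} [Fintype ι] [DecidableEq ι] [Fintype β] (f : (ι → ℤˣ) → ℝ)
    (g : β → ℤˣ) (ψ : ι → β → ℝ) :
    ∑ v : ι → β, f (fun i => g (v i)) * ∏ i, ψ i (v i)
      = ∑ b, f b * ∏ i, ∑ u, (1 + sg (b i) * sg (g u)) / 2 * ψ i u := by
  have h1 : ∀ a : ι → ℤˣ, f a = ∑ b, f b * ∏ i, (1 + sg (b i) * sg (a i)) / 2 := by
    intro a
    rw [sum_eq_single a]
    · simp [sg_mul_self]
    · intro b _ hb
      obtain ⟨i, hi⟩ := Function.ne_iff.1 hb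
      refine mul_eq_zero_of_right _ (prod_eq_zero (mem_univ i) ?_)
      rcases Int.units_eq_one_or (b i) with h1 | h1 <;>
        rcases Int.units_eq_one_or (a i) with h2 | h2 <;> simp_all [sg]
    · simp
  have h2 : ∀ v : ι → β, f (fun i => g (v i)) * ∏ i, ψ i (v i)
      = ∑ b, f b * ∏ i, ((1 + sg (b i) * sg (g (v i))) / 2 * ψ i (v i)) := by
    intro v
    rw [h1, sum_mul]
    exact sum_congr rfl fun b _ => by rw [prod_mul_distrib, mul_assoc]
  simp only [h2]
  rw [sum_comm]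
  refine sum_congr rfl fun b _ => ?_
  rw [← mul_sum, sum_prod_cube (fun i u => (1 + sg (b i) * sg (g u)) / 2 * ψ i u)]

lemma Bal.mul {d d' : ℕ} {L L' : ℝ} (h : Bal d L) (h' : Bal d' L') : Bal (d * d') (L * L') := by
  obtain ⟨ι, _, _, f, hf1, hf2, hf3⟩ := h
  obtain ⟨ι', _, _, g, hg1, hg2, hg3⟩ := h'
  have hcur : ∀ H : (ι → ι' → ℤˣ) → ℝ, ∑ w : ι × ι' → ℤˣ, H (fun i j => w (i, j)) = ∑ v, H v :=
    fun H => Fintype.sum_equiv (Equiv.curry ι ι' ℤˣ) _ _ fun _ => rfl
  have ha : ∀ b : ℤˣ, ∑ u, (1 + sg b * sg (g u)) / 2 * 1 = 2 ^ Fintype.card ι' / 2 := by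
    intro b
    simp only [mul_one, ← sum_div, sum_add_distrib, ← mul_sum, hg2, sum_const, card_univ,
      card_cube]
    simp
  have hb : ∀ b : ℤˣ, ∑ u, (1 + sg b * sg (g u)) / 2 * (cs u : ℝ)
      = 2 ^ Fintype.card ι' / 2 * (sg b * L') := by
    intro b
    have : ∀ u, (1 + sg b * sg (g u)) / 2 * (cs u : ℝ)
        = (cs u : ℝ) / 2 + sg b / 2 * (sg (g u) * cs u) := fun u => by ring
    simp only [this, sum_add_distrib, ← sum_div, ← mul_sum, sum_cs, hg3]
    ring
  refine ⟨ι × ι', inferInstance, inferInstance,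
    fun w => f (fun i => g (fun j => w (i, j))), ?_, ?_, ?_⟩
  · refine comp_mem (fun (w : ι × ι' → ℤˣ) i => g (fun j => w (i, j))) (fun S hS => ?_) hf1
    refine lowDeg_mono (Nat.mul_le_mul_right _ hS) ?_
    exact prod_mem' S (f := fun i (w : ι × ι' → ℤˣ) => sg (g (fun j => w (i, j))))
      fun i _ => emb_mem (Function.Embedding.sectR i ι') hg1
  · rw [hcur (fun v => sg (f (fun i => g (v i))))]
    have := comp_sum (fun a => sg (f a)) g (fun _ _ => 1)
    simp only [ha] at this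
    simp only [← sum_mul, hf2, prod_const_one, mul_one, zero_mul] at this
    exact this
  · have e1 : ∀ w : ι × ι' → ℤˣ, (cs w : ℝ) = ∑ i, (cs (fun j => w (i, j)) : ℝ) := by
      intro w; simp only [cs_cast, Fintype.sum_prod_type]
    simp only [e1]
    rw [hcur (fun v => sg (f (fun i => g (v i))) * ∑ i, (cs (v i) : ℝ))]
    simp only [mul_sum]
    rw [sum_comm]
    have e2 : ∀ i0 : ι, ∑ v : ι → ι' → ℤˣ, sg (f (fun i => g (v i))) * (cs (v i0) : ℝ)
        = (2 ^ Fintype.card ι' / 2) ^ Fintype.card ι * L' * ∑ b, sg (f b) * sg (b i0) := by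
      intro i0
      have h1 := comp_sum (fun a => sg (f a)) g (fun i u => if i = i0 then (cs u : ℝ) else 1)
      simp only [prod_ite_eq', mem_univ, if_true] at h1
      rw [h1, mul_sum]
      refine sum_congr rfl fun b _ => ?_
      have h2 : ∀ i, ∑ u, (1 + sg (b i) * sg (g u)) / 2 * (if i = i0 then (cs u : ℝ) else 1)
          = 2 ^ Fintype.card ι' / 2 * (if i = i0 then sg (b i) * L' else 1) := by
        intro i
        split_ifs
        · exact hb _
        · rw [ha, mul_one]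
      simp only [h2, prod_mul_distrib, prod_const, card_univ, prod_ite_eq', mem_univ, if_true]
      ring
    simp only [e2]
    rw [← mul_sum, sum_comm]
    simp only [← mul_sum, ← cs_cast, hf3]
    rw [Fintype.card_prod, div_pow, ← pow_mul, mul_comm (Fintype.card ι')]
    field_simp

lemma Bal.pow {d : ℕ} {L : ℝ} (h : Bal d L) (k : ℕ) : Bal (d ^ k) (L ^ k) := by
  induction k with
  | zero => simpa using bal_one
  | succ k ih => simpa only [pow_succ] using ih.mul h

lemma Bal.toFin {d : ℕ} {L : ℝ} (h : Bal d L) (hL : L ≠ 0) :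
    ∃ n : ℕ, 1 ≤ n ∧ ∃ f : (Fin n → ℤˣ) → ℝ, (∀ x, f x = 1 ∨ f x = -1) ∧
      fourierDegree f ≤ d ∧ ∑ i, fourierCoeff f {i} = L := by
  obtain ⟨ι, _, _, f, hf1, -, hf3⟩ := h
  let e := Fintype.equivFin ι
  refine ⟨Fintype.card ι, ?_, fun x => sg (f (fun i => x (e i))), fun x => sg_cases _, ?_, ?_⟩
  · by_contra hc
    have : IsEmpty ι := Fintype.card_eq_zero_iff.1 (by omega)
    simp [cs] at hf3
    exact hL hf3.symm
  · have h1 := emb_mem e.toEmbedding hf1
    unfold fourierDegree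
    refine Finset.sup_le fun S hS => ?_
    by_contra hc
    refine (mem_filter.1 hS).2 ?_
    unfold fourierCoeff
    rw [div_eq_zero_iff]
    exact Or.inl (coeff_eq_zero h1 (not_le.1 hc))
  · simp only [fourierCoeff, prod_singleton, ← sum_div]
    rw [sum_comm, div_eq_iff (by positivity), ← hf3]
    simp only [← mul_sum]
    refine Fintype.sum_equiv (Equiv.arrowCongr e.symm (Equiv.refl _)) _ _ fun x => ?_
    congr 1
    rw [cs_cast]
    exact (Equiv.sum_comp e (fun j => sg (x j))).symm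

end Vale.Agent.P047
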