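import Vale.Agent.P047.Est

/-!
Asymptotic choice of parameters: estimators whose degree is a fixed fraction of the dimension.
-/

namespace Vale.Agent.P047

open Finset Filter Topology

/-- Accurate estimators exist at rate `ρ`. -/
def Good (ρ : ℝ) : Prop :=
  ∀ η : ℝ, 0 < η → ∃ (n D β : ℕ) (e : ℝ), HasEst n D D β e ∧ 1 ≤ D ∧ ρ * D ≤ n ∧ e ≤ η * n

lemma good_one : Good 1 := fun η hη => ⟨1, 1, 1, 0, hasEst_one, le_rfl, by simp, by simp [hη.le]⟩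

lemma exists_large (c : ℕ) (a : ℝ) : ∃ y : ℕ, 1 ≤ y ∧ a ≤ y ∧
    (c * y ^ 5) ^ 38 * 485 ^ y ≤ 512 ^ y := by
  have h := (tendsto_pow_const_mul_const_pow_of_abs_lt_one 190 (r := (485 / 512 : ℝ))
    (by rw [abs_of_pos] <;> norm_num)).const_mul ((c : ℝ) ^ 38)
  rw [mul_zero] at h
  have h1 := h.eventually (gt_mem_nhds (show (0 : ℝ) < 1 by norm_num))
  have h2 := tendsto_natCast_atTop_atTop (R := ℝ).eventually (eventually_ge_atTop a)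
  obtain ⟨y, hy1, hy2, hy3⟩ := ((eventually_ge_atTop 1).and (h2.and h1)).exists
  refine ⟨y, hy1, hy2, ?_⟩
  have : (((c * y ^ 5) ^ 38 * 485 ^ y : ℕ) : ℝ) ≤ ((512 ^ y : ℕ) : ℝ) := by
    push_cast
    rw [div_pow, ← mul_div_assoc, ← mul_div_assoc, div_lt_one (by positivity)] at hy3
    calc ((c : ℝ) * y ^ 5) ^ 38 * 485 ^ y = (c : ℝ) ^ 38 * (y ^ 190 * 485 ^ y) := by ring
      _ ≤ _ := hy3.le
  exact_mod_cast this

lemma bad_bound (X B0 t y M : ℕ) (hy : 1 ≤ y) (ht : y ^ 5 ≤ t) (hB0 : 9 * t ≤ B0)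
    (hX : X = 3 * B0) (H : X ^ 38 * 485 ^ y ≤ 512 ^ y)
    (hM : M ≤ (2 * X + 1) * X ^ (4 * (2 * y ^ 4 + 1))) :
    B0 ^ 2 * ((2 * (9 * t) + 1) *
        ((2 * (4 * M ^ 2 * (9 * t + 1) ^ 2 + 1) + 1) * (2 * 485 ^ t * (9 * t + 2))))
      ≤ 2 ^ (9 * t) := by
  have hy4 : 1 ≤ y ^ 4 := Nat.one_le_pow _ _ hy
  have hy5 : 1 ≤ y ^ 5 := Nat.one_le_pow _ _ hy
  have hX3 : 27 ≤ X := by omega
  set j := y ^ 4 with hj
  have hM' : M ≤ X ^ (8 * j + 6) := by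
    refine hM.trans ?_
    have : 2 * X + 1 ≤ X ^ 2 := by nlinarith
    calc (2 * X + 1) * X ^ (4 * (2 * j + 1)) ≤ X ^ 2 * X ^ (4 * (2 * j + 1)) :=
          Nat.mul_le_mul_right _ this
      _ = _ := by ring
  have h1 : 1 ≤ (X ^ (8 * j + 6)) ^ 2 * X ^ 2 := Nat.succ_le_of_lt (by positivity)
  have h2 : M ^ 2 * (9 * t + 1) ^ 2 ≤ (X ^ (8 * j + 6)) ^ 2 * X ^ 2 := by
    gcongr; omega
  have h3 : 2 * (4 * M ^ 2 * (9 * t + 1) ^ 2 + 1) + 1 ≤ X * ((X ^ (8 * j + 6)) ^ 2 * X ^ 2) := by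
    nlinarith
  obtain ⟨k, hk⟩ := Nat.exists_eq_add_of_le ht
  have h4 : X ^ (38 * j) * 485 ^ t ≤ 2 ^ (9 * t) := by
    have h5 := Nat.pow_le_pow_left H j
    rw [mul_pow, ← pow_mul, ← pow_mul, ← pow_mul] at h5
    have h6 : y * j = y ^ 5 := by rw [hj]; ring
    rw [h6] at h5
    rw [pow_mul 2 9 t, hk, pow_add, pow_add, ← mul_assoc]
    exact Nat.mul_le_mul h5 (Nat.pow_le_pow_left (by norm_num) k)
  refine le_trans ?_ h4
  calc B0 ^ 2 * ((2 * (9 * t) + 1) *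
        ((2 * (4 * M ^ 2 * (9 * t + 1) ^ 2 + 1) + 1) * (2 * 485 ^ t * (9 * t + 2))))
      ≤ X ^ 2 * (X * ((X * ((X ^ (8 * j + 6)) ^ 2 * X ^ 2)) * (X * 485 ^ t * X))) := by
        gcongr <;> omega
    _ = X ^ (16 * j + 20) * 485 ^ t := by ring
    _ ≤ _ := Nat.mul_le_mul_right _ (Nat.pow_le_pow_right (by omega) (by omega))

lemma Good.step {ρ ρ' : ℝ} (h : Good ρ) (h1 : ρ' < 1 + 4 * ρ / 9) : Good ρ' := by
  intro η hη
  obtain ⟨m, D0, β, e0, hE, hD0, hρ, he⟩ := h (η / 4) (by positivity)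
  set c0 := 9 * D0 + 4 * β with hc0
  have hgap : 0 < 9 + 4 * ρ - 9 * ρ' := by linarith
  obtain ⟨y, hy1, hy2, hy3⟩ := exists_large (3 * c0)
    (max (8 * ρ' / (9 + 4 * ρ - 9 * ρ')) ((81 * (c0 : ℝ) ^ 4 + 1) / η))
  have hya := le_trans (le_max_left _ _) hy2
  have hyb := le_trans (le_max_right _ _) hy2
  rw [div_le_iff₀ hgap] at hya
  rw [div_le_iff₀ hη] at hyb
  have hB0 : 9 * (D0 * y ^ 5) + 4 * y ^ 5 * β = c0 * y ^ 5 := by rw [hc0]; ring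
  have hy4 : 1 ≤ y ^ 4 := Nat.one_le_pow _ _ hy1
  have hy45 : y ^ 4 ≤ y ^ 5 := Nat.pow_le_pow_right hy1 (by norm_num)
  have ht : y ^ 5 ≤ D0 * y ^ 5 := Nat.le_mul_of_pos_left _ hD0
  have hP := Vale.Agent.P047.step (hE.rep (4 * y ^ 5)) hD0 (D0 * y ^ 5) (y ^ 4)
    (9 * (D0 * y ^ 5) + 8 * y ^ 4 * D0) hy4 (by omega) le_rfl (by nlinarith) 1 (by
      intro M hM
      rw [one_mul]
      have := bad_bound _ _ (D0 * y ^ 5) y M hy1 ht (Nat.le_add_right _ _) rfl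
        (by rw [hB0, ← mul_assoc]; exact hy3) hM
      exact_mod_cast this)
  refine ⟨_, _, _, _, hP.symm, by omega, ?_, ?_⟩
  · push_cast
    have hD : (1 : ℝ) ≤ D0 := by exact_mod_cast hD0
    have hyy : (0 : ℝ) < (y : ℝ) ^ 4 := by positivity
    have a1 : ρ' * (9 * y + 8) ≤ y * (9 + 4 * ρ) := by nlinarith
    have a2 : ρ' * (9 * y + 8) * D0 ≤ y * (9 + 4 * ρ) * D0 := by gcongr
    have a3 : (y : ℝ) * (ρ * D0) ≤ y * m := by gcongr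
    have a4 : ρ' * (9 * y + 8) * D0 ≤ y * (9 * D0 + 4 * m) := by nlinarith
    have a5 := mul_le_mul_of_nonneg_left a4 hyy.le
    nlinarith
  · rw [hB0]
    push_cast
    have hD : (1 : ℝ) ≤ D0 := by exact_mod_cast hD0
    have hyR : (1 : ℝ) ≤ y := by exact_mod_cast hy1
    have hy4R : (1 : ℝ) ≤ (y : ℝ) ^ 4 := one_le_pow₀ hyR
    have hyy : (0 : ℝ) < (y : ℝ) ^ 5 := by positivity
    have a1 : 4 * (3 * ((c0 : ℝ) * y ^ 5)) ^ 4 / (2 * y ^ 4 + 1) ^ 4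
        ≤ 81 * (c0 : ℝ) ^ 4 * y ^ 4 := by
      rw [div_le_iff₀ (by positivity)]
      have b1 : (2 * (y : ℝ) ^ 4) ^ 4 ≤ (2 * y ^ 4 + 1) ^ 4 := by gcongr; linarith
      calc 4 * (3 * ((c0 : ℝ) * y ^ 5)) ^ 4 = 81 * (c0 : ℝ) ^ 4 * y ^ 4 * (4 * (y ^ 4) ^ 4) := by
            ring
        _ ≤ 81 * (c0 : ℝ) ^ 4 * y ^ 4 * (2 * (y : ℝ) ^ 4) ^ 4 := by
            gcongr
            have : (0 : ℝ) ≤ (y ^ 4) ^ 4 := by positivity
            nlinarith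
        _ ≤ _ := by gcongr
    have a2 : 81 * (c0 : ℝ) ^ 4 * y ^ 4 + 1 ≤ η * y ^ 5 := by
      have := mul_le_mul_of_nonneg_right hyb (by positivity : (0 : ℝ) ≤ (y : ℝ) ^ 4)
      nlinarith
    have a3 : (y : ℝ) ^ 5 * e0 ≤ y ^ 5 * (η / 4 * m) := by gcongr
    have a4 : η * y ^ 5 ≤ η * (D0 * y ^ 5) := by
      gcongr; nlinarith
    have a5 : 0 ≤ η * (y ^ 5 * m) := by positivity
    have a6 : 0 ≤ η * y ^ 5 := by positivity
    nlinarith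

lemma good_final : Good 1.72 :=
  ((good_one.step (ρ' := 1.44) (by norm_num)).step (ρ' := 1.63) (by norm_num)).step (by norm_num)

end Vale.Agent.P047
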