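import Mathlib

/-!
A spread lemma (in the style of Alweiss-Lovett-Wu-Zhang, with the minimal-fragment
encoding of Park-Pham) and its consequence: many pairwise disjoint subsets with equal sums.
-/

namespace Vale.Agent.P047

open Finset

variable {α : Type*} [DecidableEq α]

/-- Expectation of `F` over a `q`-random subset of `X`. -/
noncomputable def ex (X : Finset α) (q : ℝ) (F : Finset α → ℝ) : ℝ :=
  ∑ W ∈ X.powerset, q ^ W.card * (1 - q) ^ (X.card - W.card) * F W

omit [DecidableEq α] in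
lemma ex_empty (q : ℝ) (F : Finset α → ℝ) : ex ∅ q F = F ∅ := by
  simp [ex]

lemma ex_insert {a : α} {X : Finset α} (ha : a ∉ X) (q : ℝ) (F : Finset α → ℝ) :
    ex (insert a X) q F = q * ex X q (fun W => F (insert a W)) + (1 - q) * ex X q F := by
  unfold ex
  rw [sum_powerset_insert ha, card_insert_of_notMem ha, mul_sum, mul_sum, add_comm]
  congr 1
  · refine sum_congr rfl fun W hW => ?_
    have hWX : W ⊆ X := mem_powerset.1 hW
    have haW : a ∉ W := fun h => ha (hWX h)
    rw [card_insert_of_notMem haW, Nat.add_sub_add_right]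
    ring
  · refine sum_congr rfl fun W hW => ?_
    have hWX : W.card ≤ X.card := card_le_card (mem_powerset.1 hW)
    rw [Nat.succ_sub hWX, Nat.succ_eq_add_one, pow_succ]
    ring

omit [DecidableEq α] in
lemma ex_add (X : Finset α) (q : ℝ) (F G : Finset α → ℝ) :
    ex X q (fun W => F W + G W) = ex X q F + ex X q G := by
  unfold ex
  rw [← sum_add_distrib]
  exact sum_congr rfl fun W _ => by ring

omit [DecidableEq α] in
lemma ex_mul (X : Finset α) (q c : ℝ) (F : Finset α → ℝ) :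
    ex X q (fun W => c * F W) = c * ex X q F := by
  unfold ex
  rw [mul_sum]
  exact sum_congr rfl fun W _ => by ring

omit [DecidableEq α] in
lemma ex_const (X : Finset α) (q c : ℝ) : ex X q (fun _ => c) = c := by
  unfold ex
  rw [← sum_mul, sum_pow_mul_eq_add_pow]
  simp

omit [DecidableEq α] in
lemma ex_mono (X : Finset α) {q : ℝ} (h0 : 0 ≤ q) (h1 : q ≤ 1) {F G : Finset α → ℝ}
    (h : ∀ W, W ⊆ X → F W ≤ G W) : ex X q F ≤ ex X q G := by
  unfold ex
  refine sum_le_sum fun W hW => ?_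
  have : 0 ≤ 1 - q := by linarith
  exact mul_le_mul_of_nonneg_left (h W (mem_powerset.1 hW)) (by positivity)

lemma ex_conv (X : Finset α) {p q q' : ℝ} (h : 1 - q = (1 - p) * (1 - q')) (F : Finset α → ℝ) :
    ex X q F = ex X p (fun W1 => ex X q' (fun W2 => F (W1 ∪ W2))) := by
  induction X using Finset.induction_on generalizing F with
  | empty => simp [ex_empty]
  | insert a X ha ih =>
    rw [ex_insert ha, ex_insert ha, ih, ih]
    simp only [ex_insert ha, insert_union, union_insert, insert_idem, ex_add, ex_mul]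
    have hq : q = p + q' - p * q' := by linarith
    rw [hq]
    ring

/-- One round of the fragment argument. -/
lemma round_bound {ι : Type*} (X : Finset α) (I : Finset ι) (S : ι → Finset α) (ν : ι → ℝ)
    (hν : ∀ i ∈ I, 0 ≤ ν i) (hS : ∀ i ∈ I, S i ⊆ X) (l h : ℕ) (hl : ∀ i ∈ I, (S i).card ≤ l)
    (hh : 1 ≤ h) {p κ : ℝ} (hp0 : 0 < p) (hp1 : p ≤ 1) (hκ : 1 ≤ p * κ)
    (hspread : ∀ T : Finset α, T.Nonempty →
      ∑ i ∈ I.filter (fun i => T ⊆ S i), ν i ≤ (1 / κ) ^ T.card)
    (m : Finset α → ι → ι)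
    (hm : ∀ W, ∀ i ∈ I, m W i ∈ I ∧ S (m W i) ⊆ S i ∪ W ∧
      ∀ j ∈ I, S j ⊆ S i ∪ W → (S (m W i) \ W).card ≤ (S j \ W).card) :
    ex X p (fun W => ∑ i ∈ I.filter (fun i => h ≤ (S (m W i) \ W).card), ν i)
      ≤ 2 ^ l * (1 / (p * κ)) ^ h := by
  classical
  have hκ0 : 0 < κ := by
    by_contra hc
    push Not at hc
    nlinarith
  set wt : Finset α → ℝ := fun W => p ^ W.card * (1 - p) ^ (X.card - W.card) with hwt
  have h1p : 0 ≤ 1 - p := by linarith
  have hwt0 : ∀ W, 0 ≤ wt W := fun W => by simp only [hwt]; positivity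
  set U : Finset α → Finset (Finset α) := fun W =>
    (I.filter (fun i => h ≤ (S (m W i) \ W).card)).image (fun i => S (m W i) \ W) with hU
  have hfragsub : ∀ W, ∀ i ∈ I, S (m W i) \ W ⊆ S i := by
    intro W i hi a ha
    have h1 := (hm W i hi).2.1 (mem_sdiff.1 ha).1
    rcases mem_union.1 h1 with h2 | h2
    · exact h2
    · exact absurd h2 (mem_sdiff.1 ha).2
  -- canonical member inside Z
  let c : Finset α → Finset α := fun Z =>
    if hZ : ∃ j ∈ I, S j ⊆ Z then S hZ.choose else ∅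
  have hc : ∀ Z, (c Z).card ≤ l := by
    intro Z
    by_cases hZ : ∃ j ∈ I, S j ⊆ Z
    · simp only [c, dif_pos hZ]; exact hl _ hZ.choose_spec.1
    · simp only [c, dif_neg hZ]; simp
  have hUprop : ∀ W, ∀ T ∈ U W, h ≤ T.card ∧ Disjoint W T ∧ T ⊆ X ∧ T ⊆ c (W ∪ T) := by
    intro W T hT
    obtain ⟨i, hi, rfl⟩ := mem_image.1 hT
    obtain ⟨hiI, hih⟩ := mem_filter.1 hi
    refine ⟨hih, disjoint_sdiff, (hfragsub W i hiI).trans (hS i hiI), ?_⟩
    have hex : ∃ j ∈ I, S j ⊆ W ∪ (S (m W i) \ W) :=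
      ⟨m W i, (hm W i hiI).1, by
        intro a ha
        by_cases haW : a ∈ W
        · exact mem_union_left _ haW
        · exact mem_union_right _ (mem_sdiff.2 ⟨ha, haW⟩)⟩
    simp only [c, dif_pos hex]
    obtain ⟨hj, hjs⟩ := hex.choose_spec
    set j := hex.choose
    have h1 : S j \ W ⊆ S (m W i) \ W := by
      intro a ha
      rcases mem_union.1 (hjs (mem_sdiff.1 ha).1) with h2 | h2
      · exact absurd h2 (mem_sdiff.1 ha).2
      · exact h2
    have h2 : S j ⊆ S i ∪ W := by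
      intro a ha
      rcases mem_union.1 (hjs ha) with h2 | h2
      · exact mem_union_right _ h2
      · exact mem_union_left _ (hfragsub W i hiI h2)
    have h3 := (hm W i hiI).2.2 j hj h2
    have h4 : S j \ W = S (m W i) \ W := eq_of_subset_of_card_le h1 h3
    rw [← h4]
    exact sdiff_subset
  have step1 : ∀ W, ∑ i ∈ I.filter (fun i => h ≤ (S (m W i) \ W).card), ν i
      ≤ ∑ T ∈ U W, (1 / κ) ^ T.card := by
    intro W
    rw [← sum_fiberwise_of_maps_to (g := fun i => S (m W i) \ W) (t := U W)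
      (fun i hi => mem_image_of_mem _ hi)]
    refine sum_le_sum fun T hT => ?_
    have hTne : T.Nonempty := card_pos.1 (by have := (hUprop W T hT).1; omega)
    refine le_trans (sum_le_sum_of_subset_of_nonneg ?_ ?_) (hspread T hTne)
    · intro i hi
      obtain ⟨hi1, hi2⟩ := mem_filter.1 hi
      have hiI := (mem_filter.1 hi1).1
      exact mem_filter.2 ⟨hiI, hi2 ▸ hfragsub W i hiI⟩
    · intro i hi _
      exact hν i (mem_filter.1 hi).1
  have step2 : ∀ W, W ⊆ X → ∀ T ∈ U W,
      wt W * (1 / κ) ^ T.card ≤ wt (W ∪ T) * (1 / (p * κ)) ^ h := by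
    intro W hW T hT
    obtain ⟨h1, h2, h3, -⟩ := hUprop W T hT
    have hcard : (W ∪ T).card = W.card + T.card := card_union_of_disjoint h2
    have hle : W.card + T.card ≤ X.card := hcard ▸ card_le_card (union_subset hW h3)
    have e1 : (1 - p) ^ (X.card - W.card) ≤ (1 - p) ^ (X.card - (W.card + T.card)) :=
      pow_le_pow_of_le_one h1p (by linarith) (by omega)
    have e2 : (1 / (p * κ)) ^ T.card ≤ (1 / (p * κ)) ^ h :=
      pow_le_pow_of_le_one (by positivity) (by rw [div_le_one (by positivity)]; exact hκ) h1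
    have e3 : p ^ T.card * (1 / (p * κ)) ^ T.card = (1 / κ) ^ T.card := by
      rw [← mul_pow]; congr 1; field_simp
    simp only [hwt, hcard]
    calc p ^ W.card * (1 - p) ^ (X.card - W.card) * (1 / κ) ^ T.card
        ≤ p ^ W.card * (1 - p) ^ (X.card - (W.card + T.card)) * (1 / κ) ^ T.card := by
          gcongr
      _ = p ^ (W.card + T.card) * (1 - p) ^ (X.card - (W.card + T.card))
            * (1 / (p * κ)) ^ T.card := by
          rw [← e3, pow_add]; ring
      _ ≤ _ := by gcongr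
  have step3 : ∑ W ∈ X.powerset, ∑ T ∈ U W, wt (W ∪ T) ≤ 2 ^ l := by
    rw [sum_sigma']
    let g : (Σ _ : Finset α, Finset α) → (Σ _ : Finset α, Finset α) := fun x => ⟨x.1 ∪ x.2, x.2⟩
    have hinj : Set.InjOn g (X.powerset.sigma U) := by
      rintro ⟨W, T⟩ h1 ⟨W', T'⟩ h2 h3
      simp only [g, Sigma.mk.injEq, heq_eq_eq] at h3
      obtain ⟨h4, rfl⟩ := h3
      have d1 := (hUprop W T (mem_sigma.1 h1).2).2.1
      have d2 := (hUprop W' T (mem_sigma.1 h2).2).2.1
      have : W = W' := by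
        rw [← union_sdiff_cancel_right d1, h4, union_sdiff_cancel_right d2]
      rw [this]
    have e1 : ∑ x ∈ X.powerset.sigma U, wt (x.1 ∪ x.2)
        = ∑ y ∈ (X.powerset.sigma U).image g, wt y.1 := by
      rw [sum_image hinj]
    rw [e1]
    calc ∑ y ∈ (X.powerset.sigma U).image g, wt y.1
        ≤ ∑ y ∈ X.powerset.sigma (fun Z => (c Z).powerset), wt y.1 := by
          refine sum_le_sum_of_subset_of_nonneg ?_ (fun y _ _ => hwt0 _)
          intro y hy
          obtain ⟨⟨W, T⟩, hx, rfl⟩ := mem_image.1 hy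
          obtain ⟨hW, hT⟩ := mem_sigma.1 hx
          obtain ⟨-, -, h3, h4⟩ := hUprop W T hT
          exact mem_sigma.2 ⟨mem_powerset.2 (union_subset (mem_powerset.1 hW) h3),
            mem_powerset.2 h4⟩
      _ = ∑ Z ∈ X.powerset, ∑ _T ∈ (c Z).powerset, wt Z := by rw [sum_sigma']
      _ ≤ ∑ Z ∈ X.powerset, wt Z * 2 ^ l := by
          refine sum_le_sum fun Z _ => ?_
          rw [sum_const, card_powerset, nsmul_eq_mul, mul_comm]
          refine mul_le_mul_of_nonneg_left ?_ (hwt0 Z)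
          push_cast
          exact pow_le_pow_right₀ (by norm_num) (hc Z)
      _ = 2 ^ l := ex_const X p _
  calc ex X p (fun W => ∑ i ∈ I.filter (fun i => h ≤ (S (m W i) \ W).card), ν i)
      ≤ ex X p (fun W => ∑ T ∈ U W, (1 / κ) ^ T.card) :=
        ex_mono X hp0.le hp1 fun W _ => step1 W
    _ = ∑ W ∈ X.powerset, ∑ T ∈ U W, wt W * (1 / κ) ^ T.card := by
        unfold ex
        exact sum_congr rfl fun W _ => by rw [mul_sum]
    _ ≤ ∑ W ∈ X.powerset, ∑ T ∈ U W, wt (W ∪ T) * (1 / (p * κ)) ^ h :=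
        sum_le_sum fun W hW => sum_le_sum fun T hT => step2 W (mem_powerset.1 hW) T hT
    _ = (∑ W ∈ X.powerset, ∑ T ∈ U W, wt (W ∪ T)) * (1 / (p * κ)) ^ h := by
        rw [sum_mul]
        exact sum_congr rfl fun W _ => by rw [sum_mul]
    _ ≤ _ := by gcongr

open Classical in
/-- The spread lemma. -/
lemma spread {ι : Type*} (X : Finset α) {p κ : ℝ} (hp0 : 0 < p) (hp1 : p < 1) (hκ : 4 ≤ p * κ)
    (ν : ι → ℝ) (R : ℕ) :
    ∀ (I : Finset ι) (S : ι → Finset α) (q : ℝ), R * p ≤ q → q ≤ 1 → (∀ i ∈ I, 0 ≤ ν i) →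
      (∀ i ∈ I, S i ⊆ X) → (∀ i ∈ I, (S i).card < 2 ^ R) →
      (∀ T : Finset α, T.Nonempty →
        ∑ i ∈ I.filter (fun i => T ⊆ S i), ν i ≤ (1 / κ) ^ T.card) →
      (∑ i ∈ I, ν i) * ex X q (fun W => if ∃ i ∈ I, S i ⊆ W then 0 else 1)
        ≤ R * (4 / (p * κ)) := by
  induction R with
  | zero =>
    intro I S q _ _ _ _ hl _
    rcases I.eq_empty_or_nonempty with rfl | ⟨i, hi⟩
    · simp
    · have h0 : S i = ∅ := by
        have := hl i hi
        rw [← card_eq_zero]; omega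
      have : (fun W : Finset α => if ∃ i ∈ I, S i ⊆ W then (0 : ℝ) else 1) = fun _ => 0 := by
        funext W
        rw [if_pos ⟨i, hi, by simp [h0]⟩]
      rw [this, ex_const]
      simp
  | succ R ih =>
    intro I S q hq0 hq1 hν hS hl hspread
    push_cast at hq0
    have hRp : (0 : ℝ) ≤ R * p := by positivity
    have h1p : 0 < 1 - p := by linarith
    set q' : ℝ := (q - p) / (1 - p) with hq'
    have hq'1 : q' ≤ 1 := by rw [hq', div_le_one h1p]; linarith
    have hq'0 : R * p ≤ q' := by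
      rw [hq', le_div_iff₀ h1p]; nlinarith
    have hconv : 1 - q = (1 - p) * (1 - q') := by
      rw [hq']; field_simp; ring
    have hmex : ∀ W : Finset α, ∀ i, ∃ k, i ∈ I → (k ∈ I ∧ S k ⊆ S i ∪ W ∧
        ∀ j ∈ I, S j ⊆ S i ∪ W → (S k \ W).card ≤ (S j \ W).card) := by
      intro W i
      by_cases hi : i ∈ I
      · obtain ⟨k, hk1, hk2⟩ := exists_min_image (I.filter (fun j => S j ⊆ S i ∪ W))
          (fun j => (S j \ W).card) ⟨i, mem_filter.2 ⟨hi, subset_union_left⟩⟩
        exact ⟨k, fun _ => ⟨(mem_filter.1 hk1).1, (mem_filter.1 hk1).2,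
          fun j hj hj2 => hk2 j (mem_filter.2 ⟨hj, hj2⟩)⟩⟩
      · exact ⟨i, fun h => absurd h hi⟩
    choose m hm using hmex
    have hfragsub : ∀ W, ∀ i ∈ I, S (m W i) \ W ⊆ S i := by
      intro W i hi a ha
      have h1 := (hm W i hi).2.1 (mem_sdiff.1 ha).1
      rcases mem_union.1 h1 with h2 | h2
      · exact h2
      · exact absurd h2 (mem_sdiff.1 ha).2
    have hround := round_bound X I S ν hν hS (2 ^ (R + 1)) (2 ^ R) (fun i hi => (hl i hi).le)
      Nat.one_le_two_pow hp0 hp1.le (by linarith) hspread m hm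
    have hpk : 0 < p * κ := by linarith
    have hround2 : (2 : ℝ) ^ (2 ^ (R + 1)) * (1 / (p * κ)) ^ (2 ^ R) ≤ 4 / (p * κ) := by
      have e : (2 : ℝ) ^ (2 ^ (R + 1)) * (1 / (p * κ)) ^ (2 ^ R) = (4 / (p * κ)) ^ (2 ^ R) := by
        rw [pow_succ, mul_comm (2 ^ R) 2, pow_mul, ← mul_pow]
        congr 1
        field_simp
        norm_num
      rw [e]
      exact pow_le_of_le_one (by positivity) (by rw [div_le_one hpk]; exact hκ) (by positivity)
    rw [ex_conv X hconv, ← ex_mul]
    have key : ∀ W1 : Finset α, W1 ⊆ X →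
        (∑ i ∈ I, ν i) * ex X q' (fun W2 => if ∃ i ∈ I, S i ⊆ W1 ∪ W2 then 0 else 1)
          ≤ R * (4 / (p * κ)) + ∑ i ∈ I.filter (fun i => 2 ^ R ≤ (S (m W1 i) \ W1).card), ν i := by
      intro W1 _
      set I' := I.filter (fun i => ¬ 2 ^ R ≤ (S (m W1 i) \ W1).card) with hI'
      have hsub : ∀ i ∈ I', i ∈ I := fun i hi => (mem_filter.1 hi).1
      have h1 := ih I' (fun i => S (m W1 i) \ W1) q' hq'0 hq'1 (fun i hi => hν i (hsub i hi))
        (fun i hi => (hfragsub W1 i (hsub i hi)).trans (hS i (hsub i hi)))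
        (fun i hi => not_le.1 (mem_filter.1 hi).2)
        (fun T hT => le_trans (sum_le_sum_of_subset_of_nonneg (by
            intro i hi
            obtain ⟨h1, h2⟩ := mem_filter.1 hi
            exact mem_filter.2 ⟨hsub i h1, h2.trans (hfragsub W1 i (hsub i h1))⟩)
          (fun i hi _ => hν i (mem_filter.1 hi).1)) (hspread T hT))
      have hq'00 : 0 ≤ q' := le_trans hRp hq'0
      have h2 : ex X q' (fun W2 => if ∃ i ∈ I, S i ⊆ W1 ∪ W2 then 0 else 1)
          ≤ ex X q' (fun W2 => if ∃ i ∈ I', S (m W1 i) \ W1 ⊆ W2 then 0 else 1) := by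
        refine ex_mono X hq'00 hq'1 fun W2 _ => ?_
        by_cases h : ∃ i ∈ I', S (m W1 i) \ W1 ⊆ W2
        · obtain ⟨i, hi, hi2⟩ := h
          have : ∃ i ∈ I, S i ⊆ W1 ∪ W2 := ⟨m W1 i, (hm W1 i (hsub i hi)).1, by
            intro a ha
            by_cases haW : a ∈ W1
            · exact mem_union_left _ haW
            · exact mem_union_right _ (hi2 (mem_sdiff.2 ⟨ha, haW⟩))⟩
          rw [if_pos this, if_pos ⟨i, hi, hi2⟩]
        · rw [if_neg h]
          split_ifs <;> norm_num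
      have h3 : ex X q' (fun W2 => if ∃ i ∈ I, S i ⊆ W1 ∪ W2 then 0 else 1) ≤ 1 := by
        refine le_trans (ex_mono X hq'00 hq'1 (G := fun _ => 1) fun W2 _ => ?_) (ex_const _ _ _).le
        split_ifs <;> norm_num
      have h4 : 0 ≤ ∑ i ∈ I', ν i := sum_nonneg fun i hi => hν i (hsub i hi)
      have h5 : 0 ≤ ∑ i ∈ I.filter (fun i => 2 ^ R ≤ (S (m W1 i) \ W1).card), ν i :=
        sum_nonneg fun i hi => hν i (mem_filter.1 hi).1
      rw [← sum_filter_add_sum_filter_not I (fun i => 2 ^ R ≤ (S (m W1 i) \ W1).card), add_mul,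
        add_comm]
      refine add_le_add (le_trans (mul_le_mul_of_nonneg_left h2 h4) h1) ?_
      exact mul_le_of_le_one_right h5 h3
    refine le_trans (ex_mono X hp0.le hp1.le key) ?_
    rw [ex_add, ex_const]
    push_cast
    linarith

/-- Counting colourings by one colour class. -/
lemma sum_colour [Fintype α] (M : ℕ) (hM : 0 < M) (i : Fin M) (F : Finset α → ℝ) :
    ∑ c : α → Fin M, F (univ.filter (fun a => c a = i))
      = (M : ℝ) ^ Fintype.card α * ex univ (1 / M) F := by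
  have hM' : (M : ℝ) ≠ 0 := by positivity
  rw [← sum_fiberwise_of_maps_to (s := univ) (t := (univ : Finset α).powerset)
    (g := fun c : α → Fin M => univ.filter (fun a => c a = i)) (fun c _ => by simp)]
  unfold ex
  rw [mul_sum]
  refine sum_congr rfl fun W _ => ?_
  rw [sum_congr rfl (g := fun _ => F W) (fun c hc => by rw [(mem_filter.1 hc).2]), sum_const,
    nsmul_eq_mul, ← mul_assoc]
  congr 1
  have e : (univ.filter (fun c : α → Fin M => univ.filter (fun a => c a = i) = W))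
      = Fintype.piFinset (fun a => if a ∈ W then {i} else univ.erase i) := by
    ext c
    simp only [mem_filter, mem_univ, true_and, Fintype.mem_piFinset]
    constructor
    · rintro rfl a
      by_cases h : c a = i <;> simp [h]
    · intro h
      ext a
      have := h a
      by_cases ha : a ∈ W
      · simp [ha] at this; simp [ha, this]
      · simp [ha] at this; simp [ha, this]
  rw [e, Fintype.card_piFinset]
  have e2 : ∀ a, ((if a ∈ W then ({i} : Finset (Fin M)) else univ.erase i).card : ℝ)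
      = if a ∈ W then 1 else (M : ℝ) - 1 := by
    intro a
    split_ifs
    · simp
    · rw [card_erase_of_mem (mem_univ _), card_univ, Fintype.card_fin, Nat.cast_sub hM]; simp
  push_cast
  simp only [e2]
  rw [prod_ite, prod_const_one, one_mul, prod_const]
  have e3 : (univ.filter (fun a => a ∉ W)).card = Fintype.card α - W.card := by
    rw [← card_compl]; congr 1; ext a; simp
  have hle : W.card ≤ Fintype.card α := card_le_univ W
  rw [e3, card_univ]
  obtain ⟨k, hk⟩ := Nat.exists_eq_add_of_le hle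
  rw [hk, Nat.add_sub_cancel_left, pow_add]
  have : (1 - 1 / (M : ℝ)) = (M - 1) / M := by field_simp
  rw [this, div_pow, div_pow, one_pow]
  field_simp

/-- A sunflower bound with a polylogarithmic base. -/
lemma petals [Fintype α] (M R s : ℕ) (hM : 2 ≤ M) (hR : 1 ≤ R) (hs : s < 2 ^ R)
    (F : Finset (Finset α)) (hcard : ∀ S ∈ F, S.card = s) (κ : ℝ)
    (hκ : 4 * (M : ℝ) ^ 2 * (R : ℝ) ^ 2 < κ) (hbig : κ ^ s < F.card) :
    ∃ T : Finset α, ∃ Z : Fin M → Finset α, (∀ u, Z u ∈ F ∧ T ⊆ Z u ∧ (Z u \ T).Nonempty) ∧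
      ∀ u v, u ≠ v → Disjoint (Z u \ T) (Z v \ T) := by
  classical
  have hM' : (2 : ℝ) ≤ M := by exact_mod_cast hM
  have hR' : (1 : ℝ) ≤ R := by exact_mod_cast hR
  have hκ0 : 0 < κ := lt_of_le_of_lt (by positivity) hκ
  obtain ⟨T, -, hT⟩ := exists_max_image (univ : Finset (Finset α))
    (fun T => ((F.filter (fun S => T ⊆ S)).card : ℝ) * κ ^ T.card) univ_nonempty
  set I := F.filter (fun S => T ⊆ S) with hI
  have h0 : κ ^ s < (I.card : ℝ) * κ ^ T.card := by
    have := hT ∅ (mem_univ _)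
    simp only [empty_subset, filter_true, card_empty, pow_zero, mul_one] at this
    linarith
  have hIpos : (0 : ℝ) < I.card := by
    by_contra hc
    have h1 : (I.card : ℝ) = 0 := le_antisymm (not_lt.1 hc) (by positivity)
    rw [h1, zero_mul] at h0
    exact absurd h0 (not_lt.2 (by positivity))
  have hne : ∀ S ∈ I, (S \ T).Nonempty := by
    intro S hS
    obtain ⟨hS1, hS2⟩ := mem_filter.1 hS
    by_contra hc
    rw [not_nonempty_iff_eq_empty, sdiff_eq_empty_iff_subset] at hc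
    have hST : S = T := Subset.antisymm hc hS2
    have hTs : T.card = s := hST ▸ hcard S hS1
    have hI1 : I.card ≤ 1 := by
      refine card_le_one.2 fun a ha b hb => ?_
      obtain ⟨ha1, ha2⟩ := mem_filter.1 ha
      obtain ⟨hb1, hb2⟩ := mem_filter.1 hb
      rw [← eq_of_subset_of_card_le ha2 (by rw [hcard a ha1, hTs]),
        ← eq_of_subset_of_card_le hb2 (by rw [hcard b hb1, hTs])]
    have hI1' : (I.card : ℝ) ≤ 1 := by exact_mod_cast hI1
    rw [hTs] at h0
    have : (I.card : ℝ) * κ ^ s ≤ κ ^ s := mul_le_of_le_one_left (by positivity) hI1'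
    linarith
  have hp0 : (0 : ℝ) < 1 / (M * R) := by positivity
  have hMR : (2 : ℝ) ≤ M * R := by nlinarith
  have hp1 : (1 : ℝ) / (M * R) < 1 := by
    rw [div_lt_one (by positivity)]; linarith
  have hpk : 4 ≤ 1 / ((M : ℝ) * R) * κ := by
    rw [one_div, inv_mul_eq_div, le_div_iff₀ (by positivity)]
    nlinarith
  have hsp := spread (univ : Finset α) hp0 hp1 hpk (fun _ : Finset α => 1 / (I.card : ℝ)) R I
    (fun S => S \ T) (1 / M) (by field_simp; rfl)
    (by rw [div_le_one (by positivity)]; linarith) (fun _ _ => by positivity)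
    (fun _ _ => subset_univ _)
    (fun S hS => lt_of_le_of_lt (card_le_card sdiff_subset)
      (by rw [hcard S (mem_filter.1 hS).1]; exact hs))
    (by
      intro U _
      rcases (I.filter (fun S => U ⊆ S \ T)).eq_empty_or_nonempty with he | ⟨S0, hS0⟩
      · rw [he, sum_empty]; positivity
      · have hd : Disjoint T U :=
          Disjoint.mono_right (mem_filter.1 hS0).2 disjoint_sdiff
        have h1 := hT (T ∪ U) (mem_univ _)
        rw [card_union_of_disjoint hd, pow_add] at h1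
        have h2 : (I.filter (fun S => U ⊆ S \ T)).card
            ≤ (F.filter (fun S => T ∪ U ⊆ S)).card := by
          refine card_le_card fun S hS => ?_
          obtain ⟨h3, h4⟩ := mem_filter.1 hS
          obtain ⟨h5, h6⟩ := mem_filter.1 h3
          exact mem_filter.2 ⟨h5, union_subset h6 (h4.trans sdiff_subset)⟩
        have h2' : ((I.filter (fun S => U ⊆ S \ T)).card : ℝ)
            ≤ (F.filter (fun S => T ∪ U ⊆ S)).card := by exact_mod_cast h2
        rw [sum_const, nsmul_eq_mul, mul_one_div, div_le_iff₀ hIpos, one_div, inv_pow,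
          inv_mul_eq_div, le_div_iff₀ (by positivity)]
        have h3 : (0 : ℝ) < κ ^ T.card := by positivity
        have h4 : ((F.filter (fun S => T ∪ U ⊆ S)).card : ℝ) * κ ^ U.card ≤ I.card := by
          refine le_of_mul_le_mul_right ?_ h3
          linarith
        exact le_trans (mul_le_mul_of_nonneg_right h2' (by positivity)) h4)
  have hone : ∑ _S ∈ I, 1 / (I.card : ℝ) = 1 := by
    rw [sum_const, nsmul_eq_mul]; field_simp
  rw [hone, one_mul] at hsp
  set fail : Finset α → ℝ := fun W => if ∃ S ∈ I, S \ T ⊆ W then 0 else 1 with hfail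
  have hlt : (M : ℝ) * ex univ (1 / M) fail < 1 := by
    have h1 : (M : ℝ) * (R * (4 / (1 / (M * R) * κ))) < 1 := by
      have : (M : ℝ) * (R * (4 / (1 / (M * R) * κ))) = 4 * (M : ℝ) ^ 2 * (R : ℝ) ^ 2 / κ := by
        field_simp
      rw [this, div_lt_one hκ0]; exact hκ
    exact lt_of_le_of_lt (mul_le_mul_of_nonneg_left hsp (by positivity)) h1
  have hsum : ∑ c : α → Fin M, ∑ u : Fin M, fail (univ.filter (fun a => c a = u))
      < ∑ _c : α → Fin M, (1 : ℝ) := by
    rw [sum_comm]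
    simp only [sum_colour M (by omega) _ fail]
    simp only [sum_const, card_univ, Fintype.card_fin, nsmul_eq_mul, Fintype.card_fun,
      mul_one]
    push_cast
    have : (0 : ℝ) < (M : ℝ) ^ Fintype.card α := by positivity
    nlinarith
  obtain ⟨c, -, hc⟩ := exists_lt_of_sum_lt hsum
  have hall : ∀ u : Fin M, ∃ S ∈ I, S \ T ⊆ univ.filter (fun a => c a = u) := by
    intro u
    by_contra hu
    have h1 : fail (univ.filter (fun a => c a = u)) = 1 := by simp only [hfail, if_neg hu]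
    have h2 := single_le_sum (f := fun u => fail (univ.filter (fun a => c a = u)))
      (fun v _ => by simp only [hfail]; split_ifs <;> norm_num) (mem_univ u)
    simp only [h1] at h2
    linarith
  choose Z hZ1 hZ2 using hall
  refine ⟨T, Z, fun u => ⟨(mem_filter.1 (hZ1 u)).1, (mem_filter.1 (hZ1 u)).2, hne _ (hZ1 u)⟩, ?_⟩
  intro u v huv
  refine Disjoint.mono (hZ2 u) (hZ2 v) (disjoint_left.2 fun a h1 h2 => huv ?_)
  rw [← (mem_filter.1 h1).2, ← (mem_filter.1 h2).2]

/-- In a large set there are `M` disjoint nonempty subsets with the same integer vector sum. -/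
lemma mers [Fintype α] {τ : Type*} [Fintype τ] [DecidableEq τ] (φ : α → τ → ℤ)
    (hφ : ∀ a t, |φ a t| ≤ 1) (M R s K : ℕ) (hM : 2 ≤ M) (hR : 1 ≤ R) (hs0 : 1 ≤ s)
    (hs : s < 2 ^ R) (hK : 4 * M ^ 2 * R ^ 2 < K) (hV : (2 * s + 1) ^ Fintype.card τ ≤ 2 ^ s)
    (Y : Finset α) (hY : (2 * K + 1) * s ≤ Y.card) :
    ∃ Z : Fin M → Finset α, (∀ u, Z u ⊆ Y ∧ (Z u).Nonempty) ∧
      (∀ u v, u ≠ v → Disjoint (Z u) (Z v)) ∧
      ∀ u v t, ∑ a ∈ Z u, φ a t = ∑ a ∈ Z v, φ a t := by
  classical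
  set V : Finset (τ → ℤ) := Fintype.piFinset (fun _ => Icc (-(s : ℤ)) s) with hVdef
  have hVcard : V.card = (2 * s + 1) ^ Fintype.card τ := by
    rw [hVdef, Fintype.card_piFinset, prod_const, card_univ, Int.card_Icc]
    congr 1
    omega
  have hmaps : ∀ S ∈ Y.powersetCard s, (fun t => ∑ a ∈ S, φ a t) ∈ V := by
    intro S hS
    rw [hVdef, Fintype.mem_piFinset]
    intro t
    have h1 : |∑ a ∈ S, φ a t| ≤ s := by
      refine le_trans (abs_sum_le_sum_abs _ _) (le_trans (sum_le_sum fun a _ => hφ a t) ?_)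
      simp [(mem_powersetCard.1 hS).2]
    exact mem_Icc.2 (abs_le.1 h1)
  have hbig : V.card * K ^ s < (Y.powersetCard s).card := by
    rw [card_powersetCard, hVcard]
    have h1 := Nat.pow_le_choose (α := ℝ) s Y.card
    have h2 : ((s.factorial : ℕ) : ℝ) ≤ (s : ℝ) ^ s := by exact_mod_cast Nat.factorial_le_pow s
    have h3 : 2 * K * s + 1 ≤ Y.card + 1 - s := by
      have : (2 * K + 1) * s = 2 * K * s + s := by ring
      omega
    have h3' : (2 * K * s : ℝ) < ((Y.card + 1 - s : ℕ) : ℝ) := by exact_mod_cast h3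
    have h4 : (2 * K * s : ℝ) ^ s < ((Y.card + 1 - s : ℕ) : ℝ) ^ s :=
      pow_lt_pow_left₀ h3' (by positivity) (by omega)
    have h5 : (0 : ℝ) < (s.factorial : ℕ) := by exact_mod_cast s.factorial_pos
    rw [div_le_iff₀ h5] at h1
    have hV' : (((2 * s + 1) ^ Fintype.card τ : ℕ) : ℝ) ≤ 2 ^ s := by exact_mod_cast hV
    have h6 : (((2 * s + 1) ^ Fintype.card τ * K ^ s : ℕ) : ℝ) * (s.factorial : ℕ)
        ≤ (2 * K * s : ℝ) ^ s := by
      rw [mul_pow, mul_pow, Nat.cast_mul, Nat.cast_pow K]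
      gcongr
    have h7 : (((2 * s + 1) ^ Fintype.card τ * K ^ s : ℕ) : ℝ) < (Y.card.choose s : ℕ) :=
      lt_of_mul_lt_mul_right (lt_of_le_of_lt h6 (lt_of_lt_of_le h4 h1)) h5.le
    exact_mod_cast h7
  obtain ⟨lam, -, hlam⟩ := exists_lt_card_fiber_of_mul_lt_card_of_maps_to hmaps hbig
  obtain ⟨T, Z, hZ1, hZ2⟩ := petals M R s hM hR hs _
    (fun S hS => (mem_powersetCard.1 (mem_filter.1 hS).1).2) (K : ℝ) (by exact_mod_cast hK)
    (by exact_mod_cast hlam)
  refine ⟨fun u => Z u \ T, fun u => ⟨sdiff_subset.trans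
    (mem_powersetCard.1 (mem_filter.1 (hZ1 u).1).1).1, (hZ1 u).2.2⟩, hZ2, ?_⟩
  intro u v t
  have h1 := congrFun (mem_filter.1 (hZ1 u).1).2 t
  have h2 := congrFun (mem_filter.1 (hZ1 v).1).2 t
  rw [sum_sdiff_eq_sub (hZ1 u).2.1, sum_sdiff_eq_sub (hZ1 v).2.1, h1, h2]

/-- Greedy version: the `M` disjoint subsets cover all but a bounded number of points. -/
lemma mers_cover [Fintype α] {τ : Type*} (φ : α → τ → ℤ) (M θ : ℕ) (hM : 1 ≤ M) (Y : Finset α)
    (h : ∀ Y' : Finset α, θ ≤ Y'.card → ∃ Z : Fin M → Finset α,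
      (∀ u, Z u ⊆ Y' ∧ (Z u).Nonempty) ∧ (∀ u v, u ≠ v → Disjoint (Z u) (Z v)) ∧
      ∀ u v t, ∑ a ∈ Z u, φ a t = ∑ a ∈ Z v, φ a t) :
    ∃ A : Fin M → Finset α, (∀ u, A u ⊆ Y) ∧ (∀ u v, u ≠ v → Disjoint (A u) (A v)) ∧
      (∀ u v t, ∑ a ∈ A u, φ a t = ∑ a ∈ A v, φ a t) ∧
      (Y.filter (fun a => ∀ u, a ∉ A u)).card ≤ θ := by
  classical
  obtain ⟨A, hA, hmax⟩ := exists_max_image
    ((univ : Finset (Fin M → Finset α)).filter (fun A => (∀ u, A u ⊆ Y) ∧
      (∀ u v, u ≠ v → Disjoint (A u) (A v)) ∧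
      (∀ u v t, ∑ a ∈ A u, φ a t = ∑ a ∈ A v, φ a t)))
    (fun A => (A ⟨0, hM⟩).card) ⟨fun _ => ∅, by simp⟩
  obtain ⟨hA1, hA2, hA3⟩ := (mem_filter.1 hA).2
  refine ⟨A, hA1, hA2, hA3, ?_⟩
  by_contra hc
  obtain ⟨Z, hZ1, hZ2, hZ3⟩ := h _ (not_le.1 hc).le
  have hd : ∀ u v, Disjoint (A u) (Z v) := by
    intro u v
    refine disjoint_left.2 fun a h1 h2 => ?_
    exact (mem_filter.1 ((hZ1 v).1 h2)).2 u h1
  have h1 := hmax (fun u => A u ∪ Z u) (mem_filter.2 ⟨mem_univ _,
    fun u => union_subset (hA1 u) ((hZ1 u).1.trans (filter_subset _ _)),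
    fun u v huv => by
      simp only [disjoint_union_left, disjoint_union_right]
      exact ⟨⟨hA2 u v huv, (hd v u).symm⟩, hd u v, hZ2 u v huv⟩,
    fun u v t => by
      rw [sum_union (hd u u), sum_union (hd v v), hA3 u v t, hZ3 u v t]⟩)
  simp only [card_union_of_disjoint (hd _ _)] at h1
  have := (hZ1 ⟨0, hM⟩).2.card_pos
  omega

end Vale.Agent.P047
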