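import Vale.Agent.P047.LowDeg
import Vale.Agent.P047.Spread

/-!
Splitting every Hamming level into `M` parts with the same high-degree Fourier sums.
-/

namespace Vale.Agent.P047

open Finset

variable {ι : Type*} [Fintype ι] [DecidableEq ι]

omit [DecidableEq ι] in
lemma card_high (t : ℕ) (h : Fintype.card ι = 9 * t) :
    (univ.filter (fun T : Finset ι => 5 * t < T.card)).card ≤ 485 ^ t := by
  have h1 : ∑ T : Finset ι, ((5 : ℝ) / 4) ^ T.card = (9 / 4) ^ (9 * t) := by
    have := sum_pow_mul_eq_add_pow ((5 : ℝ) / 4) 1 (univ : Finset ι)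
    simp only [one_pow, mul_one, powerset_univ, card_univ, h] at this
    rw [this]; norm_num
  have h2 : ((univ.filter (fun T : Finset ι => 5 * t < T.card)).card : ℝ) * (5 / 4) ^ (5 * t)
      ≤ (9 / 4) ^ (9 * t) := by
    rw [← h1, ← nsmul_eq_mul, ← sum_const]
    refine le_trans (sum_le_sum fun T hT => ?_)
      (sum_le_sum_of_subset_of_nonneg (filter_subset _ _) fun _ _ _ => by positivity)
    exact pow_le_pow_right₀ (by norm_num) (mem_filter.1 hT).2.le
  have h3 : ((9 : ℝ) / 4) ^ (9 * t) ≤ 485 ^ t * (5 / 4) ^ (5 * t) := by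
    rw [pow_mul, pow_mul, ← mul_pow]
    exact pow_le_pow_left₀ (by positivity) (by norm_num) t
  have h4 : ((univ.filter (fun T : Finset ι => 5 * t < T.card)).card : ℝ) ≤ 485 ^ t :=
    le_of_mul_le_mul_right (h2.trans h3) (by positivity)
  exact_mod_cast h4

lemma level_mers (t M : ℕ) (hM : 2 ≤ M) (h : Fintype.card ι = 9 * t) :
    ∃ A : Fin M → Finset (ι → ℤˣ), (∀ u v, u ≠ v → Disjoint (A u) (A v)) ∧
      (∀ u v, ∀ ψ : ℤ → ℝ, (fun x => ((if x ∈ A u then 1 else 0) - (if x ∈ A v then 1 else 0))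
        * ψ (cs x)) ∈ lowDeg ι (5 * t)) ∧
      (∀ u v, (A u).card = (A v).card) ∧
      (univ.filter (fun x => ∀ u, x ∉ A u)).card ≤
        (2 * (9 * t) + 1) * ((2 * (4 * M ^ 2 * (9 * t + 1) ^ 2 + 1) + 1)
          * (2 * 485 ^ t * (9 * t + 2))) := by
  classical
  let τ := {T : Finset ι // 5 * t < T.card ∨ T = ∅}
  have hτ : Fintype.card τ ≤ 2 * 485 ^ t := by
    rw [Fintype.card_subtype, filter_or]
    refine le_trans (card_union_le _ _) ?_
    have h1 := card_high t h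
    have h2 : (univ.filter (fun T : Finset ι => T = ∅)).card ≤ 1 := by
      rw [filter_eq']; simp
    have h3 : 1 ≤ 485 ^ t := Nat.one_le_pow _ _ (by norm_num)
    omega
  let φ : (ι → ℤˣ) → τ → ℤ := fun x T => ∏ i ∈ T.1, (x i : ℤ)
  have hφ : ∀ x T, |φ x T| ≤ 1 := by
    intro x T
    simp only [φ, abs_prod]
    have : ∀ i, |((x i : ℤˣ) : ℤ)| = 1 := fun i => by
      rcases Int.units_eq_one_or (x i) with h | h <;> simp [h]
    simp [this]
  have hφc : ∀ x T, (φ x T : ℝ) = chi T.1 x := by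
    intro x T; simp [φ, chi, sg]
  set s := 2 * 485 ^ t * (9 * t + 2) with hs
  set K := 4 * M ^ 2 * (9 * t + 1) ^ 2 + 1 with hK
  have hs0 : 1 ≤ s := by
    have h3 : 1 ≤ 485 ^ t := Nat.one_le_pow _ _ (by norm_num)
    rw [hs]; nlinarith
  have hcov := fun c : ℤ => mers_cover φ M ((2 * K + 1) * s) (by omega)
    (univ.filter (fun x : ι → ℤˣ => cs x = c)) (by
      intro Y' hY'
      have h1 : s ≤ 2 ^ (9 * t) := by
        have h2 : Y'.card ≤ 2 ^ (9 * t) := by
          rw [← h, ← card_cube]; exact card_le_univ _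
        nlinarith
      refine mers φ hφ M (9 * t + 1) s K hM (by omega) hs0 (by rw [pow_succ]; omega)
        (by omega) ?_ Y' hY'
      have h3 : 2 * s + 1 ≤ 2 ^ (9 * t + 2) := by
        have : 1 ≤ 2 ^ (9 * t) := Nat.one_le_two_pow
        rw [pow_add]; omega
      calc (2 * s + 1) ^ Fintype.card τ ≤ (2 ^ (9 * t + 2)) ^ Fintype.card τ :=
            Nat.pow_le_pow_left h3 _
        _ ≤ (2 ^ (9 * t + 2)) ^ (2 * 485 ^ t) := Nat.pow_le_pow_right (by positivity) hτ
        _ = 2 ^ s := by rw [← pow_mul, hs, mul_comm])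
  choose A hA1 hA2 hA3 hA4 using hcov
  have hAc : ∀ c u x, x ∈ A c u → cs x = c := fun c u x hx => (mem_filter.1 (hA1 c u hx)).2
  -- a sum over the glued set splits by levels
  have hsplit : ∀ (u : Fin M) (g : (ι → ℤˣ) → ℝ) (ψ : ℤ → ℝ),
      ∑ x, (if x ∈ A (cs x) u then 1 else 0) * ψ (cs x) * g x
        = ∑ c ∈ Icc (-((9 * t : ℕ) : ℤ)) (9 * t : ℕ), ψ c * ∑ x ∈ A c u, g x := by
    intro u g ψ
    rw [← sum_fiberwise_of_maps_to (s := univ) (t := Icc (-((9 * t : ℕ) : ℤ)) (9 * t : ℕ))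
      (g := fun x : ι → ℤˣ => cs x) (fun x _ => mem_Icc.2 (abs_le.1 (h ▸ abs_cs_le x)))]
    refine sum_congr rfl fun c _ => ?_
    rw [mul_sum]
    symm
    refine sum_subset_zero_on_sdiff (hA1 c u) ?_ ?_
    · intro x hx
      obtain ⟨h1, h2⟩ := mem_sdiff.1 hx
      rw [(mem_filter.1 h1).2, if_neg h2]; simp
    · intro x hx
      rw [hAc c u x hx, if_pos hx]; simp
  have hkey : ∀ (u v : Fin M) (ψ : ℤ → ℝ) (T : τ),
      ∑ x, (if x ∈ A (cs x) u then 1 else 0) * ψ (cs x) * chi T.1 x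
        = ∑ x, (if x ∈ A (cs x) v then 1 else 0) * ψ (cs x) * chi T.1 x := by
    intro u v ψ T
    rw [hsplit, hsplit]
    refine sum_congr rfl fun c _ => ?_
    congr 1
    have := hA3 c u v T
    simp only [← hφc]
    exact_mod_cast this
  refine ⟨fun u => univ.filter (fun x => x ∈ A (cs x) u), ?_, ?_, ?_, ?_⟩
  · intro u v huv
    refine disjoint_left.2 fun x h1 h2 => ?_
    exact disjoint_left.1 (hA2 (cs x) u v huv) (mem_filter.1 h1).2 (mem_filter.1 h2).2
  · intro u v ψ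
    refine mem_of_coeff fun S hS => ?_
    have := hkey u v ψ ⟨S, Or.inl hS⟩
    simp only [mem_filter, mem_univ, true_and, sub_mul, sum_sub_distrib]
    exact sub_eq_zero.2 this
  · intro u v
    have := hkey u v (fun _ => 1) ⟨∅, Or.inr rfl⟩
    simp only [chi, prod_empty, mul_one, sum_boole] at this
    exact_mod_cast this
  · simp only [mem_filter, mem_univ, true_and]
    rw [card_eq_sum_card_fiberwise (t := Icc (-((9 * t : ℕ) : ℤ)) (9 * t : ℕ))
      (f := fun x : ι → ℤˣ => cs x) (fun x _ => mem_Icc.2 (abs_le.1 (h ▸ abs_cs_le x)))]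
    refine le_trans (sum_le_sum (g := fun _ => (2 * K + 1) * s) fun c _ => ?_) ?_
    · refine le_trans (card_le_card fun x hx => ?_) (hA4 c)
      obtain ⟨h1, h2⟩ := mem_filter.1 hx
      refine mem_filter.2 ⟨mem_filter.2 ⟨mem_univ _, h2⟩, ?_⟩
      rw [← h2]; exact (mem_filter.1 h1).2
    · rw [sum_const, Int.card_Icc, smul_eq_mul]
      exact Nat.mul_le_mul_right _ (by omega)

end Vale.Agent.P047
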