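import Mathlib

/-!
Low-degree functions on the discrete cube.
-/

namespace Vale.Agent.P047

open Finset

variable {ι ι' : Type*}

/-- The real value of a sign. -/
def sg (u : ℤˣ) : ℝ := ((u : ℤ) : ℝ)

lemma sg_mul (u v : ℤˣ) : sg (u * v) = sg u * sg v := by simp [sg]
lemma sg_neg (u : ℤˣ) : sg (-u) = - sg u := by simp [sg]
lemma sg_one : sg 1 = 1 := by simp [sg]
lemma sg_cases (u : ℤˣ) : sg u = 1 ∨ sg u = -1 := by
  rcases Int.units_eq_one_or u with rfl | rfl <;> simp [sg]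
lemma sg_mul_self (u : ℤˣ) : sg u * sg u = 1 := by
  rcases sg_cases u with h | h <;> rw [h] <;> norm_num
lemma abs_sg (u : ℤˣ) : |sg u| = 1 := by
  rcases sg_cases u with h | h <;> rw [h] <;> norm_num
lemma sum_units (g : ℤˣ → ℝ) : ∑ u : ℤˣ, g u = g 1 + g (-1) := by
  have : (univ : Finset ℤˣ) = {1, -1} := by decide
  rw [this, sum_pair (by decide)]

/-- The character of a set of coordinates. -/
def chi (S : Finset ι) (x : ι → ℤˣ) : ℝ := ∏ i ∈ S, sg (x i)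

lemma chi_mul [DecidableEq ι] (S T : Finset ι) (x : ι → ℤˣ) :
    chi S x * chi T x = chi (symmDiff S T) x := by
  unfold chi
  have h1 : ∏ i ∈ S, sg (x i) = (∏ i ∈ S \ T, sg (x i)) * ∏ i ∈ S ∩ T, sg (x i) := by
    rw [← prod_union (disjoint_sdiff_inter S T), sdiff_union_inter]
  have h2 : ∏ i ∈ T, sg (x i) = (∏ i ∈ T \ S, sg (x i)) * ∏ i ∈ S ∩ T, sg (x i) := by
    rw [inter_comm, ← prod_union (disjoint_sdiff_inter T S), sdiff_union_inter]
  have h3 : (∏ i ∈ S ∩ T, sg (x i)) * ∏ i ∈ S ∩ T, sg (x i) = 1 := by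
    rw [← prod_mul_distrib]; simp [sg_mul_self]
  rw [h1, h2, symmDiff_def, sup_eq_union, prod_union disjoint_sdiff_sdiff]
  linear_combination (∏ i ∈ S \ T, sg (x i)) * (∏ i ∈ T \ S, sg (x i)) * h3

lemma card_cube [Fintype ι] [DecidableEq ι] :
    Fintype.card (ι → ℤˣ) = 2 ^ Fintype.card ι := by
  rw [Fintype.card_fun, Fintype.card_units_int]

lemma sum_prod_cube [Fintype ι] [DecidableEq ι] {β : Type*} [Fintype β] (g : ι → β → ℝ) :
    ∑ x : ι → β, ∏ i, g i (x i) = ∏ i, ∑ b, g i b := by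
  rw [prod_univ_sum, Fintype.piFinset_univ]

lemma sum_chi [Fintype ι] [DecidableEq ι] {S : Finset ι} (hS : S.Nonempty) :
    ∑ x : ι → ℤˣ, chi S x = 0 := by
  obtain ⟨i, hi⟩ := hS
  have h1 : ∀ x : ι → ℤˣ, chi S x = ∏ j, (if j ∈ S then sg (x j) else 1) := by
    intro x; unfold chi; rw [prod_ite_mem, univ_inter]
  simp only [h1]
  rw [sum_prod_cube (fun j u => if j ∈ S then sg u else 1)]
  refine prod_eq_zero (mem_univ i) ?_
  simp [hi, sg]

lemma sum_chi_chi [Fintype ι] [DecidableEq ι] (x y : ι → ℤˣ) :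
    ∑ S : Finset ι, chi S y * chi S x = if y = x then 2 ^ Fintype.card ι else 0 := by
  have h1 : ∑ S : Finset ι, chi S y * chi S x = ∏ i, (1 + sg (y i) * sg (x i)) := by
    rw [prod_one_add, powerset_univ]
    exact sum_congr rfl fun S _ => by unfold chi; rw [← prod_mul_distrib]
  rw [h1]
  split_ifs with h
  · subst h
    simp only [sg_mul_self, prod_const, card_univ]; norm_num
  · obtain ⟨i, hi⟩ := Function.ne_iff.1 h
    refine prod_eq_zero (mem_univ i) ?_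
    rcases Int.units_eq_one_or (y i) with h1 | h1 <;>
      rcases Int.units_eq_one_or (x i) with h2 | h2 <;> simp_all [sg]

lemma inversion [Fintype ι] [DecidableEq ι] (f : (ι → ℤˣ) → ℝ) (x : ι → ℤˣ) :
    f x = ∑ S : Finset ι, ((∑ y, f y * chi S y) / 2 ^ Fintype.card ι) * chi S x := by
  have h1 : ∀ S : Finset ι, ((∑ y, f y * chi S y) / 2 ^ Fintype.card ι) * chi S x
      = ∑ y, f y / 2 ^ Fintype.card ι * (chi S y * chi S x) := by
    intro S
    rw [sum_div, sum_mul]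
    exact sum_congr rfl fun y _ => by ring
  simp only [h1]
  rw [sum_comm]
  simp only [← mul_sum, sum_chi_chi, mul_ite, mul_zero, sum_ite_eq', mem_univ, if_true]
  field_simp

/-- Functions of degree at most `d`. -/
def lowDeg (ι : Type*) (d : ℕ) : Submodule ℝ ((ι → ℤˣ) → ℝ) :=
  Submodule.span ℝ {f | ∃ S : Finset ι, S.card ≤ d ∧ f = chi S}

lemma chi_mem {d : ℕ} {S : Finset ι} (h : S.card ≤ d) : chi S ∈ lowDeg ι d :=
  Submodule.subset_span ⟨S, h, rfl⟩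

lemma lowDeg_mono {a b : ℕ} (h : a ≤ b) {f : (ι → ℤˣ) → ℝ} (hf : f ∈ lowDeg ι a) :
    f ∈ lowDeg ι b := by
  refine Submodule.span_mono ?_ hf
  rintro _ ⟨S, h1, h2⟩
  exact ⟨S, h1.trans h, h2⟩

lemma const_mem (d : ℕ) (c : ℝ) : (fun _ => c) ∈ lowDeg ι d := by
  have : (fun _ => c : (ι → ℤˣ) → ℝ) = c • chi ∅ := by funext x; simp [chi]
  rw [this]
  exact Submodule.smul_mem _ _ (chi_mem (by simp))

lemma add_mem' {d : ℕ} {f g : (ι → ℤˣ) → ℝ} (hf : f ∈ lowDeg ι d) (hg : g ∈ lowDeg ι d) :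
    (fun x => f x + g x) ∈ lowDeg ι d := Submodule.add_mem _ hf hg

lemma sub_mem' {d : ℕ} {f g : (ι → ℤˣ) → ℝ} (hf : f ∈ lowDeg ι d) (hg : g ∈ lowDeg ι d) :
    (fun x => f x - g x) ∈ lowDeg ι d := Submodule.sub_mem _ hf hg

lemma cmul_mem {d : ℕ} (c : ℝ) {f : (ι → ℤˣ) → ℝ} (hf : f ∈ lowDeg ι d) :
    (fun x => c * f x) ∈ lowDeg ι d := Submodule.smul_mem _ c hf

lemma mulc_mem {d : ℕ} (c : ℝ) {f : (ι → ℤˣ) → ℝ} (hf : f ∈ lowDeg ι d) :
    (fun x => f x * c) ∈ lowDeg ι d := by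
  simpa only [mul_comm] using cmul_mem c hf

lemma sum_mem' {d : ℕ} {κ : Type*} (s : Finset κ) {f : κ → (ι → ℤˣ) → ℝ}
    (hf : ∀ k ∈ s, f k ∈ lowDeg ι d) : (fun x => ∑ k ∈ s, f k x) ∈ lowDeg ι d := by
  have : (fun x => ∑ k ∈ s, f k x) = ∑ k ∈ s, f k := by funext x; simp
  rw [this]
  exact Submodule.sum_mem _ hf

lemma map_mem {a b : ℕ} (Φ : ((ι → ℤˣ) → ℝ) →ₗ[ℝ] ((ι' → ℤˣ) → ℝ))
    (h : ∀ S : Finset ι, S.card ≤ a → Φ (chi S) ∈ lowDeg ι' b) {f : (ι → ℤˣ) → ℝ}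
    (hf : f ∈ lowDeg ι a) : Φ f ∈ lowDeg ι' b := by
  have : lowDeg ι a ≤ (lowDeg ι' b).comap Φ := by
    refine Submodule.span_le.2 ?_
    rintro _ ⟨S, h1, rfl⟩
    exact h S h1
  exact this hf

lemma comp_mem {a b : ℕ} (g : (ι' → ℤˣ) → (ι → ℤˣ))
    (h : ∀ S : Finset ι, S.card ≤ a → (fun x => chi S (g x)) ∈ lowDeg ι' b)
    {f : (ι → ℤˣ) → ℝ} (hf : f ∈ lowDeg ι a) : (fun x => f (g x)) ∈ lowDeg ι' b :=
  map_mem (LinearMap.funLeft ℝ ℝ g) h hf

lemma mul_mem' [DecidableEq ι] {a b : ℕ} {f g : (ι → ℤˣ) → ℝ} (hf : f ∈ lowDeg ι a)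
    (hg : g ∈ lowDeg ι b) : (fun x => f x * g x) ∈ lowDeg ι (a + b) := by
  refine map_mem (LinearMap.mulRight ℝ g) (fun S hS => ?_) hf
  refine map_mem (LinearMap.mulLeft ℝ (chi S)) (fun T hT => ?_) hg
  have : (LinearMap.mulLeft ℝ (chi S)) (chi T) = chi (symmDiff S T) := by
    funext x; exact chi_mul S T x
  rw [this]
  refine chi_mem (le_trans (card_le_card symmDiff_subset_union) ?_)
  exact le_trans (card_union_le _ _) (add_le_add hS hT)

lemma prod_mem' [DecidableEq ι] {d : ℕ} {κ : Type*} (s : Finset κ) {f : κ → (ι → ℤˣ) → ℝ}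
    (hf : ∀ k ∈ s, f k ∈ lowDeg ι d) : (fun x => ∏ k ∈ s, f k x) ∈ lowDeg ι (s.card * d) := by
  classical
  induction s using Finset.induction_on with
  | empty => simpa using const_mem 0 1
  | insert a s ha ih =>
    simp only [prod_insert ha, card_insert_of_notMem ha]
    rw [add_mul, one_mul, add_comm]
    exact mul_mem' (hf a (mem_insert_self _ _)) (ih fun k hk => hf k (mem_insert_of_mem hk))

lemma mem_of_coeff [Fintype ι] [DecidableEq ι] {d : ℕ} {f : (ι → ℤˣ) → ℝ}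
    (h : ∀ S : Finset ι, d < S.card → ∑ y, f y * chi S y = 0) : f ∈ lowDeg ι d := by
  have : f = fun x => ∑ S : Finset ι, ((∑ y, f y * chi S y) / 2 ^ Fintype.card ι) * chi S x :=
    funext (inversion f)
  rw [this]
  refine sum_mem' _ fun S _ => ?_
  by_cases hS : d < S.card
  · simp only [h S hS, zero_div, zero_mul]; exact const_mem d 0
  · exact cmul_mem _ (chi_mem (not_lt.1 hS))

lemma mem_card [Fintype ι] [DecidableEq ι] (f : (ι → ℤˣ) → ℝ) :
    f ∈ lowDeg ι (Fintype.card ι) :=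
  mem_of_coeff fun S hS => absurd (card_le_univ S) (not_le.2 hS)

lemma coeff_eq_zero [Fintype ι] [DecidableEq ι] {d : ℕ} {f : (ι → ℤˣ) → ℝ}
    (hf : f ∈ lowDeg ι d) {S : Finset ι} (hS : d < S.card) : ∑ y, f y * chi S y = 0 := by
  induction hf using Submodule.span_induction with
  | mem g hg =>
    obtain ⟨T, hT, rfl⟩ := hg
    simp only [chi_mul]
    refine sum_chi (nonempty_iff_ne_empty.2 fun h => ?_)
    have : T = S := symmDiff_eq_bot.1 h
    subst this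
    omega
  | zero => simp
  | add g g' _ _ h1 h2 => simp [add_mul, sum_add_distrib, h1, h2]
  | smul c g _ h1 => simp [mul_assoc, ← mul_sum, h1]

lemma emb_mem {d : ℕ} (e : ι ↪ ι') {f : (ι → ℤˣ) → ℝ} (hf : f ∈ lowDeg ι d) :
    (fun x : ι' → ℤˣ => f (fun i => x (e i))) ∈ lowDeg ι' d := by
  refine comp_mem (fun x i => x (e i)) (fun S hS => ?_) hf
  have : (fun x : ι' → ℤˣ => chi S (fun i => x (e i))) = chi (S.map e) := by
    funext x; simp [chi]
  rw [this]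
  exact chi_mem (by simpa using hS)

lemma inl_mem {d : ℕ} {f : (ι → ℤˣ) → ℝ} (hf : f ∈ lowDeg ι d) :
    (fun x : ι ⊕ ι' → ℤˣ => f (fun i => x (Sum.inl i))) ∈ lowDeg (ι ⊕ ι') d :=
  emb_mem Function.Embedding.inl hf

lemma inr_mem {d : ℕ} {f : (ι' → ℤˣ) → ℝ} (hf : f ∈ lowDeg ι' d) :
    (fun x : ι ⊕ ι' → ℤˣ => f (fun i => x (Sum.inr i))) ∈ lowDeg (ι ⊕ ι') d :=
  emb_mem Function.Embedding.inr hf

lemma neg_mem' {d : ℕ} {f : (ι → ℤˣ) → ℝ} (hf : f ∈ lowDeg ι d) :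
    (fun x => f (-x)) ∈ lowDeg ι d := by
  refine comp_mem (fun x => -x) (fun S hS => ?_) hf
  have : (fun x : ι → ℤˣ => chi S (-x)) = fun x => (-1) ^ S.card * chi S x := by
    funext x; simp [chi, sg_neg, prod_neg]
  rw [this]
  exact cmul_mem _ (chi_mem hS)

lemma sum_sum_cube [Fintype ι] [DecidableEq ι] [Fintype ι'] [DecidableEq ι']
    (F : (ι → ℤˣ) → (ι' → ℤˣ) → ℝ) :
    ∑ x : ι ⊕ ι' → ℤˣ, F (fun i => x (Sum.inl i)) (fun i => x (Sum.inr i))
      = ∑ x, ∑ z, F x z := by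
  rw [← Fintype.sum_prod_type']
  exact Fintype.sum_equiv (Equiv.sumArrowEquivProdArrow ι ι' ℤˣ) _ _ fun x => rfl

lemma sum_neg_cube [Fintype ι] [DecidableEq ι] (F : (ι → ℤˣ) → ℝ) :
    ∑ x, F (-x) = ∑ x, F x :=
  Fintype.sum_equiv (Equiv.neg _) _ _ fun _ => rfl

/-- Separation of variables through an integer statistic of the second block. -/
lemma sep_mem [DecidableEq ι] [Fintype ι'] [DecidableEq ι'] {a b : ℕ} (G : (ι' → ℤˣ) → ℤ)
    (hG : ∀ h : ℤ → ℝ, (fun z => h (G z)) ∈ lowDeg ι' b) (Ψ : (ι → ℤˣ) → ℤ → ℝ)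
    (hΨ : ∀ g, (fun x => Ψ x g) ∈ lowDeg ι a) :
    (fun x : ι ⊕ ι' → ℤˣ => Ψ (fun i => x (Sum.inl i)) (G (fun i => x (Sum.inr i))))
      ∈ lowDeg (ι ⊕ ι') (a + b) := by
  have : (fun x : ι ⊕ ι' → ℤˣ => Ψ (fun i => x (Sum.inl i)) (G (fun i => x (Sum.inr i))))
      = fun x => ∑ g ∈ univ.image G, Ψ (fun i => x (Sum.inl i)) g *
        (if G (fun i => x (Sum.inr i)) = g then 1 else 0) := by
    funext x
    simp
  rw [this]
  exact sum_mem' _ fun g _ => mul_mem' (inl_mem (hΨ g))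
    (inr_mem (hG (fun t => if t = g then 1 else 0)))

/-- The coordinate sum. -/
def cs [Fintype ι] (x : ι → ℤˣ) : ℤ := ∑ i, (x i : ℤ)

lemma cs_cast [Fintype ι] (x : ι → ℤˣ) : (cs x : ℝ) = ∑ i, sg (x i) := by
  simp [cs, sg]

lemma abs_cs_le [Fintype ι] (x : ι → ℤˣ) : |cs x| ≤ Fintype.card ι := by
  refine le_trans (abs_sum_le_sum_abs _ _) ?_
  have : ∀ i, |((x i : ℤˣ) : ℤ)| = 1 := fun i => by
    rcases Int.units_eq_one_or (x i) with h | h <;> simp [h]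
  simp [this]

lemma cs_mem [Fintype ι] : (fun x : ι → ℤˣ => (cs x : ℝ)) ∈ lowDeg ι 1 := by
  simp only [cs_cast]
  refine sum_mem' _ fun i _ => ?_
  have : (fun x : ι → ℤˣ => sg (x i)) = chi {i} := by funext x; simp [chi]
  rw [this]
  exact chi_mem (by simp)

lemma sum_cs [Fintype ι] [DecidableEq ι] : ∑ x : ι → ℤˣ, (cs x : ℝ) = 0 := by
  simp only [cs_cast]
  rw [sum_comm]
  refine sum_eq_zero fun i _ => ?_
  have := sum_chi (ι := ι) (singleton_nonempty i)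
  simpa [chi] using this

lemma cs_sum [Fintype ι] [Fintype ι'] (x : ι ⊕ ι' → ℤˣ) :
    cs x = cs (fun i => x (Sum.inl i)) + cs (fun i => x (Sum.inr i)) := by
  simp [cs, Fintype.sum_sum_type]

lemma cs_neg [Fintype ι] (x : ι → ℤˣ) : cs (-x) = - cs x := by
  simp [cs]

end Vale.Agent.P047
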