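import Vale.Agent.P047.Final

namespace Vale.Agent.P047

open Finset

lemma poly_lower : ∃ ε c : ℝ, 0 < ε ∧ 0 < c ∧ ∀ d : ℕ, 1 ≤ d → ∃ n : ℕ, 1 ≤ n ∧
    ∃ f : (Fin n → ℤˣ) → ℝ, (∀ x, f x = 1 ∨ f x = -1) ∧ fourierDegree f ≤ d ∧
      c * (d : ℝ) ^ (1 / 2 + ε) ≤ ∑ i, fourierCoeff f {i} := by
  obtain ⟨d0, L, hB, hd0, hL, hlt⟩ := exists_bal
  have hd0R : (2 : ℝ) ≤ d0 := by exact_mod_cast hd0
  have hlog : 0 < Real.log d0 := Real.log_pos (by linarith)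
  have hlog2 : Real.log d0 < 2 * Real.log L := by
    have := Real.log_lt_log (by linarith) hlt
    rwa [Real.log_pow] at this
  have hε : 0 < Real.log L / Real.log d0 - 1 / 2 := by
    rw [sub_pos, lt_div_iff₀ hlog]; linarith
  refine ⟨Real.log L / Real.log d0 - 1 / 2, 1 / L, hε, by positivity, fun d hd => ?_⟩
  have e1 : 1 / 2 + (Real.log L / Real.log d0 - 1 / 2) = Real.log L / Real.log d0 := by ring
  have e2 : (d0 : ℝ) ^ (Real.log L / Real.log d0) = L := by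
    rw [Real.rpow_def_of_pos (by linarith), mul_div_cancel₀ _ hlog.ne', Real.exp_log hL]
  have h1 : d0 ^ Nat.log d0 d ≤ d := Nat.pow_log_le_self d0 (by omega)
  have h2 : d < d0 ^ (Nat.log d0 d + 1) := Nat.lt_pow_succ_log_self (by omega) d
  obtain ⟨n, hn, f, hf1, hf2, hf3⟩ := (hB.pow (Nat.log d0 d)).toFin (by positivity)
  refine ⟨n, hn, f, hf1, hf2.trans h1, ?_⟩
  rw [hf3, e1]
  have h3 : (d : ℝ) ≤ (d0 : ℝ) ^ (Nat.log d0 d + 1) := by exact_mod_cast h2.le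
  have h4 := Real.rpow_le_rpow (by positivity) h3 (z := Real.log L / Real.log d0) (by linarith)
  rw [← Real.rpow_natCast, ← Real.rpow_mul (by positivity), mul_comm, Real.rpow_mul (by positivity),
    e2, Real.rpow_natCast, pow_succ] at h4
  rw [one_div, inv_mul_le_iff₀ hL, mul_comm]
  exact h4

lemma not_weak : ¬ ∃ C : ℝ, ∀ n : ℕ, 1 ≤ n → ∀ f : (Fin n → ℤˣ) → ℝ, (∀ x, f x = 1 ∨ f x = -1) →
    ∑ i, fourierCoeff f {i} ≤ C * Real.sqrt (fourierDegree f) := by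
  rintro ⟨C, hC⟩
  obtain ⟨d0, L, hB, hd0, hL, hlt⟩ := exists_bal
  have hd0R : (2 : ℝ) ≤ d0 := by exact_mod_cast hd0
  have hs : 0 < Real.sqrt d0 := Real.sqrt_pos.2 (by linarith)
  have hr : 1 < L / Real.sqrt d0 := by
    rw [one_lt_div hs]
    exact (Real.sqrt_lt' hL).2 hlt
  obtain ⟨k, hk⟩ := pow_unbounded_of_one_lt |C| hr
  obtain ⟨n, hn, f, hf1, hf2, hf3⟩ := (hB.pow k).toFin (by positivity)
  have h1 := hC n hn f hf1
  rw [hf3] at h1
  have h2 : Real.sqrt (fourierDegree f) ≤ Real.sqrt d0 ^ k := by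
    rw [Real.sqrt_le_left (by positivity), ← pow_mul, mul_comm, pow_mul,
      Real.sq_sqrt (by positivity)]
    exact_mod_cast hf2
  rw [div_pow, lt_div_iff₀ (by positivity)] at hk
  have h3 : C * Real.sqrt (fourierDegree f) ≤ |C| * Real.sqrt d0 ^ k :=
    mul_le_mul (le_abs_self C) h2 (by positivity) (abs_nonneg C)
  linarith

end Vale.Agent.P047
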